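import Vale.Agent.P211.Statement.Manifold
import Vale.Agent.P211.Local.Riem

/-!
# P211: chart changes and the chain rule
-/

open Matrix
open scoped ContDiff Topology

namespace Vale.Agent.P211.Global

open Local (IsMetricOn pdm MSmooth MDiff pd_sum pd_mul pd_const differentiableAt_of_smooth pd_comm)

noncomputable section

variable {X : Type*} [TopologicalSpace X] [ChartedSpace Euc4 X]

theorem isMetricOn {G : X → Euc4 → M4} (h : IsMetricAtlas G) (p : X) :
    IsMetricOn (G p) (chartAt Euc4 p).target :=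
  ⟨(chartAt Euc4 p).open_target, h.smooth p, h.symm p, h.posDef p⟩

theorem tr_source (p q : X) : (tr p q).source =
    (chartAt Euc4 p).target ∩ (chartAt Euc4 p).symm ⁻¹' (chartAt Euc4 q).source := rfl

theorem tr_apply (p q : X) (y : Euc4) :
    tr p q y = chartAt Euc4 q ((chartAt Euc4 p).symm y) := rfl

theorem tr_mem_target {p q : X} {y : Euc4} (hy : y ∈ (tr p q).source) :
    tr p q y ∈ (chartAt Euc4 q).target :=
  (chartAt Euc4 q).map_source hy.2

theorem symm_tr {p q : X} {y : Euc4} (hy : y ∈ (tr p q).source) :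
    (chartAt Euc4 q).symm (tr p q y) = (chartAt Euc4 p).symm y :=
  (chartAt Euc4 q).left_inv hy.2

theorem chart_mem_source {p q x : X} (hp : x ∈ (chartAt Euc4 p).source)
    (hq : x ∈ (chartAt Euc4 q).source) :
    chartAt Euc4 p x ∈ (tr p q).source ∧ tr p q (chartAt Euc4 p x) = chartAt Euc4 q x := by
  refine ⟨⟨(chartAt Euc4 p).map_source hp, ?_⟩, ?_⟩
  · show (chartAt Euc4 p).symm (chartAt Euc4 p x) ∈ (chartAt Euc4 q).source
    rwa [(chartAt Euc4 p).left_inv hp]
  · rw [tr_apply, (chartAt Euc4 p).left_inv hp]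

theorem tr_smooth [IsManifold (modelWithCornersSelf ℝ Euc4) ∞ X] (p q : X) :
    ContDiffOn ℝ ∞ (tr p q) (tr p q).source := by
  have h := HasGroupoid.compatible (G := contDiffGroupoid ∞ (modelWithCornersSelf ℝ Euc4))
    (chart_mem_atlas Euc4 p) (chart_mem_atlas Euc4 q)
  rw [contDiffGroupoid, mem_groupoid_of_pregroupoid] at h
  simpa [contDiffPregroupoid, tr] using h.1

theorem coord_smooth [IsManifold (modelWithCornersSelf ℝ Euc4) ∞ X] (p q : X) (i : Fin 4) :
    ContDiffOn ℝ ∞ (fun y => tr p q y i) (tr p q).source :=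
  (PiLp.proj (𝕜 := ℝ) 2 (fun _ : Fin 4 => ℝ) i).contDiff.comp_contDiffOn (tr_smooth p q)

theorem euc_eq_sum (v : Euc4) : v = ∑ i, v i • EuclideanSpace.single i (1 : ℝ) := by
  ext k
  simp [Pi.single_apply]

theorem fderiv_eq_sum (u : Euc4 → ℝ) (z v : Euc4) :
    fderiv ℝ u z v = ∑ i, v i * pd u i z := by
  conv_lhs => rw [euc_eq_sum v, map_sum]
  simp [pd, map_smul]

theorem coord_fderiv {f : Euc4 → Euc4} {y : Euc4} (hf : DifferentiableAt ℝ f y) (v : Euc4)
    (i : Fin 4) : fderiv ℝ f y v i = fderiv ℝ (fun z => f z i) y v := by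
  have h := ((PiLp.proj (𝕜 := ℝ) 2 (fun _ : Fin 4 => ℝ) i).hasFDerivAt.comp y hf.hasFDerivAt)
  rw [show (fun z => f z i) = PiLp.proj (𝕜 := ℝ) 2 (fun _ : Fin 4 => ℝ) i ∘ f from rfl, h.fderiv]
  rfl

/-- The chain rule in coordinates. -/
theorem pd_comp {u : Euc4 → ℝ} {f : Euc4 → Euc4} {y : Euc4} (hu : DifferentiableAt ℝ u (f y))
    (hf : DifferentiableAt ℝ f y) (i : Fin 4) :
    pd (fun z => u (f z)) i y = ∑ a, jac f y a i * pd u a (f y) := by
  have h : fderiv ℝ (fun z => u (f z)) y = (fderiv ℝ u (f y)).comp (fderiv ℝ f y) :=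
    (hu.hasFDerivAt.comp y hf.hasFDerivAt).fderiv
  rw [pd, h, ContinuousLinearMap.comp_apply, fderiv_eq_sum]
  refine Finset.sum_congr rfl fun a _ => ?_
  rw [coord_fderiv hf]
  rfl

variable [IsManifold (modelWithCornersSelf ℝ Euc4) ∞ X] {p q : X} {y : Euc4}

theorem tr_diff (hy : y ∈ (tr p q).source) : DifferentiableAt ℝ (tr p q) y :=
  ((tr_smooth p q).contDiffAt ((tr p q).open_source.mem_nhds hy)).differentiableAt (by simp)

theorem smooth_jac (p q : X) : MSmooth (fun y => jac (tr p q) y) (tr p q).source := fun a b =>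
  Local.pd_smooth (coord_smooth p q a) (tr p q).open_source b

theorem jac_comm (hy : y ∈ (tr p q).source) (a i j : Fin 4) :
    pdm (fun z => jac (tr p q) z) i y a j = pdm (fun z => jac (tr p q) z) j y a i :=
  pd_comm (coord_smooth p q a) (tr p q).open_source hy j i

theorem smooth_comp_tr {u : Euc4 → ℝ} (hu : ContDiffOn ℝ ∞ u (chartAt Euc4 q).target) :
    ContDiffOn ℝ ∞ (fun y => u (tr p q y)) (tr p q).source :=
  hu.comp (tr_smooth p q) fun _ hz => tr_mem_target hz

theorem pd_comp_tr {u : Euc4 → ℝ} (hu : ContDiffOn ℝ ∞ u (chartAt Euc4 q).target)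
    (hy : y ∈ (tr p q).source) (i : Fin 4) :
    pd (fun z => u (tr p q z)) i y = ∑ a, jac (tr p q) y a i * pd u a (tr p q y) :=
  pd_comp (differentiableAt_of_smooth hu (chartAt Euc4 q).open_target (tr_mem_target hy))
    (tr_diff hy) i

omit [IsManifold (modelWithCornersSelf ℝ Euc4) ∞ X] in
theorem jac_det_ne {G : X → Euc4 → M4} (h : IsMetricAtlas G) (hy : y ∈ (tr p q).source) :
    (jac (tr p q) y).det ≠ 0 := by
  intro h0
  have hc := congrArg Matrix.det (h.compat p q y hy)
  rw [det_mul, det_mul, h0, mul_zero] at hc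
  exact (h.posDef p y hy.1).det_pos.ne' hc

end

end Vale.Agent.P211.Global
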