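import Vale.Agent.P211.Global.Point

/-!
# P211: divergence identities in one chart

The divergence of a covector field in coordinates, Green's identity and Bochner's identity for a
metric with Ricci tensor three times the metric, all pointwise.
-/

open Matrix
open scoped ContDiff Topology

namespace Vale.Agent.P211.Global

open Local (IsMetricOn pdm MSmooth MDiff gamMat curvature)

noncomputable section

/-- The divergence of a covector field. -/
def covDiv (G : Euc4 → M4) (θ : Euc4 → Fin 4 → ℝ) (y : Euc4) : ℝ :=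
  ∑ i, ∑ k, (G y)⁻¹ i k * (pd (fun z => θ z k) i y - ∑ m, gam G y m i k * θ y m)

/-- The covector field whose divergence gives Bochner's identity. -/
def bochnerField (G : Euc4 → M4) (u v : Euc4 → ℝ) (y : Euc4) : Fin 4 → ℝ :=
  hessM G u y *ᵥ ((G y)⁻¹ *ᵥ dvec v y) - Local.lap G u y • dvec v y

/-- The derivative of a determinant. -/
theorem pd_det {A : Euc4 → M4} {y : Euc4} (hA : MDiff A y) (i : Fin 4) :
    pd (fun z => (A z).det) i y = ((A y).adjugate * pdm A i y).trace := by
  have hd : DifferentiableAt ℝ (fun z => (A z).det) y := by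
    simp only [Matrix.det_apply']
    refine DifferentiableAt.fun_sum fun σ _ => ?_
    simp only [Fin.prod_univ_four]
    exact ((((hA (σ 0) 0).fun_mul (hA (σ 1) 1)).fun_mul (hA (σ 2) 2)).fun_mul
      (hA (σ 3) 3)).const_mul _
  refine Local.pd_eq_of_line hd ?_
  have hterm : ∀ σ : Equiv.Perm (Fin 4), HasDerivAt
      (fun t : ℝ => ((Equiv.Perm.sign σ : ℤ) : ℝ) *
        ∏ l, A (y + t • EuclideanSpace.single i 1) (σ l) l)
      (((Equiv.Perm.sign σ : ℤ) : ℝ) * ∑ l, (∏ m ∈ Finset.univ.erase l, A y (σ m) m) *
        pdm A i y (σ l) l) 0 := by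
    intro σ
    have := HasDerivAt.fun_finsetProd (u := (Finset.univ : Finset (Fin 4)))
      (f := fun l (t : ℝ) => A (y + t • EuclideanSpace.single i 1) (σ l) l)
      (f' := fun l => pdm A i y (σ l) l) (x := (0 : ℝ))
      (fun l _ => Local.hasDerivAt_line (hA (σ l) l) i)
    simpa using this.const_mul ((Equiv.Perm.sign σ : ℤ) : ℝ)
  have hsum := HasDerivAt.fun_sum (u := (Finset.univ : Finset (Equiv.Perm (Fin 4))))
    fun σ _ => hterm σ
  simp only [← Matrix.det_apply'] at hsum
  refine hsum.congr_deriv ?_
  have hc : ((A y).adjugate * pdm A i y).trace =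
      ∑ l, ((A y).updateCol l fun r => pdm A i y r l).det := by
    simp only [Matrix.trace, Matrix.diag, ← Matrix.cramer_apply, cramer_eq_adjugate_mulVec,
      mul_apply, mulVec, dotProduct]
  rw [hc]
  simp only [Matrix.det_apply', Finset.mul_sum]
  rw [Finset.sum_comm]
  refine Finset.sum_congr rfl fun l _ => Finset.sum_congr rfl fun σ _ => ?_
  congr 1
  rw [← Finset.mul_prod_erase _ _ (Finset.mem_univ l), updateCol_self, mul_comm]
  refine congrArg _ (Finset.prod_congr rfl fun m hm => ?_)
  rw [updateCol_ne (Finset.ne_of_mem_erase hm)]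

variable {G : Euc4 → M4} {U : Set Euc4} (hG : IsMetricOn G U) {y : Euc4}
include hG

theorem inv_transpose (z : Euc4) : (G z)⁻¹.transpose = (G z)⁻¹ := by
  rw [transpose_nonsing_inv, hG.transpose_eq]

theorem smooth_inv : MSmooth (fun z => (G z)⁻¹) U := hG.smooth.inv fun _ hz => hG.det_ne hz

theorem smooth_dvec {u : Euc4 → ℝ} (hu : ContDiffOn ℝ ∞ u U) (k : Fin 4) :
    ContDiffOn ℝ ∞ (fun z => dvec u z k) U :=
  Local.pd_smooth hu hG.isOpen k

theorem smooth_hessM {u : Euc4 → ℝ} (hu : ContDiffOn ℝ ∞ u U) : MSmooth (hessM G u) U :=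
  fun i j => (Local.pd_smooth (smooth_dvec hG hu j) hG.isOpen i).sub
    (ContDiffOn.sum fun k _ => (hG.smooth_gamMat i k j).mul (smooth_dvec hG hu k))

theorem smooth_lap {u : Euc4 → ℝ} (hu : ContDiffOn ℝ ∞ u U) :
    ContDiffOn ℝ ∞ (Local.lap G u) U :=
  ContDiffOn.sum fun i _ => ContDiffOn.sum fun j _ =>
    (smooth_inv hG i j).mul (smooth_hessM hG hu i j)

variable (hy : y ∈ U)
include hy

theorem pdm_inv (i : Fin 4) : pdm (fun z => (G z)⁻¹) i y =
    -(gamMat G i y * (G y)⁻¹ + (G y)⁻¹ * (gamMat G i y).transpose) := by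
  have h1 : (G y)⁻¹ * G y = 1 := nonsing_inv_mul _ (Ne.isUnit (hG.det_ne hy))
  have h2 : G y * (G y)⁻¹ = 1 := mul_nonsing_inv _ (Ne.isUnit (hG.det_ne hy))
  have e := Local.pdm_congr (A := fun z => G z * (G z)⁻¹) (B := fun _ => (1 : M4)) hG.isOpen hy
    (fun z hz => mul_nonsing_inv _ (Ne.isUnit (hG.det_ne hz))) i
  rw [Local.pdm_const, Local.pdm_mul (hG.diff hy) ((smooth_inv hG).diff hG.isOpen hy),
    hG.compat hy i] at e
  have e' := congrArg ((G y)⁻¹ * ·) e
  simp only [Matrix.mul_add, Matrix.add_mul, ← Matrix.mul_assoc, h1, Matrix.one_mul,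
    Matrix.mul_zero] at e'
  simp only [Matrix.mul_assoc, h2, Matrix.mul_one] at e'
  rw [eq_comm, neg_eq_iff_add_eq_zero]
  exact e'

theorem diff_vec {θ : Euc4 → Fin 4 → ℝ} (hθ : ∀ k, ContDiffOn ℝ ∞ (fun z => θ z k) U) (k : Fin 4) :
    DifferentiableAt ℝ (fun z => θ z k) y :=
  Local.differentiableAt_of_smooth (hθ k) hG.isOpen hy

/-- The Euclidean divergence of the densitised vector is the density times the divergence. -/
theorem sum_pd_dens {θ : Euc4 → Fin 4 → ℝ} (hθ : ∀ k, ContDiffOn ℝ ∞ (fun z => θ z k) U) :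
    ∑ i, pd (fun z => Real.sqrt (G z).det * ((G z)⁻¹ *ᵥ θ z) i) i y =
      Real.sqrt (G y).det * covDiv G θ y := by
  have hN := (smooth_inv hG).diff hG.isOpen hy
  have hdet : ContDiffOn ℝ ∞ (fun z => (G z).det) U := by
    simp only [Matrix.det_apply']
    exact ContDiffOn.sum fun σ _ => contDiffOn_const.mul
      (contDiffOn_prod fun l _ => hG.smooth _ _)
  have hpos : ∀ z ∈ U, 0 < (G z).det := fun z hz => (hG.posDef z hz).det_pos
  have hs : DifferentiableAt ℝ (fun z => Real.sqrt (G z).det) y :=
    Local.differentiableAt_of_smooth (hdet.sqrt fun z hz => (hpos z hz).ne') hG.isOpen hy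
  have hds : ∀ i, pd (fun z => Real.sqrt (G z).det) i y =
      Real.sqrt (G y).det * (gamMat G i y).trace := by
    intro i
    refine Local.pd_eq_of_line hs ?_
    have hd := Local.differentiableAt_of_smooth hdet hG.isOpen hy
    have hl : HasDerivAt (fun t : ℝ => Real.sqrt (G (y + t • EuclideanSpace.single i 1)).det)
        (pd (fun z => (G z).det) i y / (2 * Real.sqrt (G y).det)) 0 := by
      simpa using (Local.hasDerivAt_line hd i).sqrt (by simpa using (hpos y hy).ne')
    refine hl.congr_deriv ?_
    rw [pd_det (hG.diff hy), hG.compat hy i]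
    have hadj : (G y).adjugate = (G y).det • (G y)⁻¹ := by
      rw [Matrix.inv_def, smul_smul, Ring.inverse_eq_inv', mul_inv_cancel₀ (hpos y hy).ne', one_smul]
    rw [hadj, Matrix.smul_mul, trace_smul, Matrix.mul_add, trace_add, ← Matrix.mul_assoc,
      nonsing_inv_mul _ (Ne.isUnit (hG.det_ne hy)), Matrix.one_mul, ← Matrix.mul_assoc,
      trace_mul_cycle, mul_nonsing_inv _ (Ne.isUnit (hG.det_ne hy)), Matrix.one_mul,
      trace_transpose, smul_eq_mul]
    have hsq := Real.mul_self_sqrt (hpos y hy).le
    have hne := (Real.sqrt_pos.2 (hpos y hy)).ne'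
    field_simp
    linear_combination -(2 * (gamMat G i y).trace) * hsq
  have hvd : ∀ i, DifferentiableAt ℝ (fun z => ((G z)⁻¹ *ᵥ θ z) i) y := fun i => by
    simp only [mulVec, dotProduct]
    exact DifferentiableAt.fun_sum fun k _ => (hN i k).fun_mul (diff_vec hG hy hθ k)
  have e : ∀ i, pd (fun z => Real.sqrt (G z).det * ((G z)⁻¹ *ᵥ θ z) i) i y =
      Real.sqrt (G y).det * ((gamMat G i y).trace * ((G y)⁻¹ *ᵥ θ y) i +
        ∑ k, (pdm (fun z => (G z)⁻¹) i y i k * θ y k + (G y)⁻¹ i k * pd (fun z => θ z k) i y)) := by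
    intro i
    have hV : pd (fun z => ((G z)⁻¹ *ᵥ θ z) i) i y = ∑ k,
        (pdm (fun z => (G z)⁻¹) i y i k * θ y k + (G y)⁻¹ i k * pd (fun z => θ z k) i y) := by
      simp only [mulVec, dotProduct]
      rw [Local.pd_sum (f := fun k z => (G z)⁻¹ i k * θ z k) _
        fun k _ => (hN i k).fun_mul (diff_vec hG hy hθ k)]
      exact Finset.sum_congr rfl fun k _ => Local.pd_mul (hN i k) (diff_vec hG hy hθ k) i
    rw [Local.pd_mul hs (hvd i), hds, hV, mul_add, ← mul_assoc]
  rw [Finset.sum_congr rfl fun i _ => e i, ← Finset.mul_sum]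
  refine congrArg _ ?_
  simp only [covDiv, pdm_inv hG hy, Matrix.neg_apply, Matrix.add_apply, neg_mul, add_mul, mul_sub,
    Finset.sum_add_distrib, Finset.sum_neg_distrib, Finset.sum_sub_distrib]
  have h1 : ∑ i, ∑ k, (gamMat G i y * (G y)⁻¹) i k * θ y k =
      ∑ i, (gamMat G i y).trace * ((G y)⁻¹ *ᵥ θ y) i := by
    have hr : ∀ i, ∑ k, (gamMat G i y * (G y)⁻¹) i k * θ y k =
        ∑ m, gam G y i i m * ((G y)⁻¹ *ᵥ θ y) m := by
      intro i
      simp only [mul_apply, gamMat, of_apply, mulVec, dotProduct, Finset.sum_mul, Finset.mul_sum]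
      rw [Finset.sum_comm]
      exact Finset.sum_congr rfl fun m _ => Finset.sum_congr rfl fun k _ => by ring
    rw [Finset.sum_congr rfl fun i _ => hr i, Finset.sum_comm]
    refine Finset.sum_congr rfl fun m _ => ?_
    simp only [Matrix.trace, Matrix.diag, gamMat, of_apply, Finset.sum_mul]
    exact Finset.sum_congr rfl fun i _ => by rw [hG.gam_comm y i i m]
  have h2 : ∑ i, ∑ k, ((G y)⁻¹ * (gamMat G i y).transpose) i k * θ y k =
      ∑ i, ∑ k, (G y)⁻¹ i k * ∑ m, gam G y m i k * θ y m := by
    refine Finset.sum_congr rfl fun i _ => ?_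
    simp only [mul_apply, transpose_apply, gamMat, of_apply, Finset.sum_mul, Finset.mul_sum]
    rw [Finset.sum_comm]
    exact Finset.sum_congr rfl fun k _ => Finset.sum_congr rfl fun m _ => by ring
  rw [h1, h2]
  ring

theorem covDiv_smul {a : Euc4 → ℝ} {θ : Euc4 → Fin 4 → ℝ} (ha : ContDiffOn ℝ ∞ a U)
    (hθ : ∀ k, ContDiffOn ℝ ∞ (fun z => θ z k) U) :
    covDiv G (fun z => a z • θ z) y =
      dvec a y ⬝ᵥ (G y)⁻¹ *ᵥ θ y + a y * covDiv G θ y := by
  simp only [covDiv, dvec, dotProduct, mulVec, Pi.smul_apply, smul_eq_mul, Finset.mul_sum,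
    ← Finset.sum_add_distrib]
  refine Finset.sum_congr rfl fun i _ => Finset.sum_congr rfl fun k _ => ?_
  rw [Local.pd_mul (Local.differentiableAt_of_smooth ha hG.isOpen hy) (diff_vec hG hy hθ k),
    Finset.sum_congr rfl fun m _ => show gam G y m i k * (a y * θ y m) =
      a y * (gam G y m i k * θ y m) by ring, ← Finset.mul_sum]
  ring

omit hG hy in
theorem covDiv_dvec (u : Euc4 → ℝ) : covDiv G (dvec u) y = Local.lap G u y := rfl

theorem hessM_symm {u : Euc4 → ℝ} (hu : ContDiffOn ℝ ∞ u U) :
    (hessM G u y).transpose = hessM G u y := by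
  ext i j
  simp only [hessM, transpose_apply, of_apply, hG.gam_comm y _ i j]
  rw [Local.pd_comm hu hG.isOpen hy i j]

theorem contract_riem (hE : IsEinsteinThree G U) (i k : Fin 4) :
    ∑ j, ∑ l, riem G y i j k l * (G y)⁻¹ j l = 3 * G y k i := by
  rw [← hE y hy k i, SelfDual.ric_eq_sum_riemUp hG.symm]
  refine Finset.sum_congr rfl fun j _ => ?_
  have hR := hG.isCurvTen hy
  have e : ∀ l, riem G y i j k l = ∑ p, G y l p * riemUp G y p k j i := fun l => by
    have h2 : riem G y i j k l = riem G y j i l k := by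
      linarith [hR.anti12 j i k l, hR.anti34 j i k l]
    rw [h2]
    rfl
  calc ∑ l, riem G y i j k l * (G y)⁻¹ j l
      = ∑ p, ((G y)⁻¹ * G y) j p * riemUp G y p k j i := by
        simp only [e, mul_apply, Finset.sum_mul]
        rw [Finset.sum_comm]
        exact Finset.sum_congr rfl fun p _ => Finset.sum_congr rfl fun l _ => by ring
    _ = riemUp G y j k j i := by
        rw [nonsing_inv_mul _ (Ne.isUnit (hG.det_ne hy))]
        simp [one_apply]

/-- The commutator of covariant derivatives on a differential, contracted. -/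
theorem ricci_identity {u : Euc4 → ℝ} (hu : ContDiffOn ℝ ∞ u U) (hE : IsEinsteinThree G U)
    (q : Fin 4) :
    ∑ i, ∑ k, (G y)⁻¹ i k * (pdm (hessM G u) i y - hessM G u y * gamMat G i y -
        (gamMat G i y).transpose * hessM G u y) q k =
      pd (Local.lap G u) q y + 3 * dvec u y q := by
  have hH := smooth_hessM hG hu
  have hHd := hH.diff hG.isOpen hy
  have hsym := hessM_symm hG hy hu
  set N := (G y)⁻¹ with hNdef
  -- the commutator on a covector
  have hcomm : ∀ i k, (pdm (hessM G u) i y - hessM G u y * gamMat G i y) q k -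
      (pdm (hessM G u) q y - hessM G u y * gamMat G q y) i k =
        -∑ m, curvature (gamMat G) i q y m k * dvec u y m := by
    intro i k
    have hg := fun s => hG.diff_gamMat hy s
    have hdu : ∀ m, DifferentiableAt ℝ (fun z => pd u m z) y := fun m =>
      Local.differentiableAt_of_smooth (smooth_dvec hG hu m) hG.isOpen hy
    have hdd : ∀ m s, DifferentiableAt ℝ (fun z => pd (pd u m) s z) y := fun m s =>
      Local.differentiableAt_of_smooth
        (Local.pd_smooth (smooth_dvec hG hu m) hG.isOpen s) hG.isOpen hy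
    have hd : ∀ s t, pdm (hessM G u) s y t k = pd (pd (pd u k) t) s y -
        ∑ m, (pdm (gamMat G t) s y m k * pd u m y + pd (pd u m) s y * gamMat G t y m k) := by
      intro s t
      show pd (fun z => pd (pd u k) t z - ∑ m, gamMat G t z m k * pd u m z) s y = _
      rw [Local.pd_sub (hdd k t) (DifferentiableAt.fun_sum fun m _ => (hg t m k).fun_mul (hdu m)),
        Local.pd_sum (f := fun m z => gamMat G t z m k * pd u m z) _
          fun m _ => (hg t m k).fun_mul (hdu m)]
      refine congrArg _ (Finset.sum_congr rfl fun m _ => ?_)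
      rw [Local.pd_mul (hg t m k) (hdu m), mul_comm (gamMat G t y m k)]
      rfl
    have hsk : ContDiffOn ℝ ∞ (pd u k) U := Local.pd_smooth hu hG.isOpen k
    have h3 : pd (pd (pd u k) q) i y = pd (pd (pd u k) i) q y :=
      Local.pd_comm (f := pd u k) hsk hG.isOpen hy q i
    have hrow : ∀ s t, (hessM G u y * gamMat G t y) s k =
        ∑ m, pd (pd u m) s y * gamMat G t y m k -
          ∑ m, (gamMat G s y * gamMat G t y) m k * pd u m y := by
      intro s t
      have e : ∀ m, hessM G u y s m =
          pd (pd u m) s y - ∑ l, gamMat G s y l m * pd u l y := fun m => rfl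
      rw [mul_apply, ← Finset.sum_congr rfl fun m _ => congrArg (· * gamMat G t y m k) (e m).symm]
      rw [Finset.sum_congr rfl fun m _ => sub_mul _ _ _, Finset.sum_sub_distrib]
      refine congrArg (_ - ·) ?_
      rw [Finset.sum_congr rfl fun m _ => Finset.sum_mul _ _ _, Finset.sum_comm]
      refine Finset.sum_congr rfl fun l _ => ?_
      rw [mul_apply, Finset.sum_mul]
      exact Finset.sum_congr rfl fun m _ => by ring
    rw [Matrix.sub_apply, Matrix.sub_apply, hd, hd, hrow, hrow, h3]
    simp only [curvature, Matrix.sub_apply, Matrix.add_apply, sub_mul, add_mul,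
      Finset.sum_add_distrib, Finset.sum_sub_distrib, dvec]
    ring
  have hlap : pd (Local.lap G u) q y =
      ∑ i, ∑ k, N i k * (pdm (hessM G u) q y - hessM G u y * gamMat G q y -
        (gamMat G q y).transpose * hessM G u y) i k := by
    have hNd := (smooth_inv hG).diff hG.isOpen hy
    show pd (fun z => ∑ i, ∑ k, (G z)⁻¹ i k * hessM G u z i k) q y = _
    rw [Local.pd_sum _ fun i _ => DifferentiableAt.fun_sum fun k _ => (hNd i k).fun_mul (hHd i k)]
    have e : ∀ i, pd (fun z => ∑ k, (G z)⁻¹ i k * hessM G u z i k) q y =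
        ∑ k, (pdm (fun z => (G z)⁻¹) q y i k * hessM G u y i k +
          N i k * pdm (hessM G u) q y i k) := fun i => by
      rw [Local.pd_sum _ fun k _ => (hNd i k).fun_mul (hHd i k)]
      exact Finset.sum_congr rfl fun k _ => Local.pd_mul (hNd i k) (hHd i k) q
    rw [Finset.sum_congr rfl fun i _ => e i]
    have hp : ∀ A B : M4, ∑ i, ∑ k, A i k * B i k = (A.transpose * B).trace :=
      fun A B => SelfDual.pair_eq_trace A B
    simp only [Finset.sum_add_distrib, hp, pdm_inv hG hy, ← hNdef]
    have hNt : N.transpose = N := inv_transpose hG y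
    simp only [transpose_neg, transpose_add, transpose_mul, transpose_transpose, hNt, Matrix.neg_mul,
      trace_neg, Matrix.add_mul, trace_add, Matrix.mul_sub, trace_sub, Matrix.mul_assoc]
    rw [trace_mul_comm (gamMat G q y) (N * hessM G u y), Matrix.mul_assoc]
    ring
  have hcon : ∑ i, ∑ k, N i k * (-∑ m, curvature (gamMat G) i q y m k * dvec u y m) =
      3 * dvec u y q := by
    have hcur : ∀ i m k, curvature (gamMat G) i q y m k = ∑ l, N m l * riem G y i q l k := by
      intro i m k
      have : curvature (gamMat G) i q y = N * (G y * curvature (gamMat G) i q y) := by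
        rw [← Matrix.mul_assoc, nonsing_inv_mul _ (Ne.isUnit (hG.det_ne hy)), Matrix.one_mul]
      rw [this, mul_apply]
      simp only [Local.riem_eq]
    have hR := hG.isCurvTen hy
    have hS : ∀ l, ∑ i, ∑ k, N i k * riem G y i q l k = -(3 * G y l q) := by
      intro l
      rw [← contract_riem hG hy hE q l, ← Finset.sum_neg_distrib]
      refine Finset.sum_congr rfl fun i _ => ?_
      rw [← Finset.sum_neg_distrib]
      refine Finset.sum_congr rfl fun k _ => ?_
      rw [hR.anti12 q i l k]
      ring
    calc _ = -∑ m, dvec u y m * ∑ l, N m l * ∑ i, ∑ k, N i k * riem G y i q l k := by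
          simp only [hcur, mul_neg, Finset.sum_neg_distrib, Finset.sum_mul, Finset.mul_sum]
          refine congrArg _ ?_
          rw [Finset.sum_congr rfl fun i _ => Finset.sum_comm, Finset.sum_comm]
          refine Finset.sum_congr rfl fun m _ => ?_
          rw [Finset.sum_congr rfl fun i _ => Finset.sum_comm, Finset.sum_comm]
          exact Finset.sum_congr rfl fun l _ => Finset.sum_congr rfl fun i _ =>
            Finset.sum_congr rfl fun k _ => by ring
      _ = 3 * ∑ m, dvec u y m * (N * G y) m q := by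
          simp only [hS, mul_apply, Finset.mul_sum, ← Finset.sum_neg_distrib]
          exact Finset.sum_congr rfl fun m _ => Finset.sum_congr rfl fun l _ => by ring
      _ = _ := by
          rw [hNdef, nonsing_inv_mul _ (Ne.isUnit (hG.det_ne hy))]
          simp [one_apply]
  rw [hlap, ← hcon, ← Finset.sum_add_distrib]
  refine Finset.sum_congr rfl fun i _ => ?_
  rw [← Finset.sum_add_distrib]
  refine Finset.sum_congr rfl fun k _ => ?_
  have hlast : ((gamMat G i y).transpose * hessM G u y) q k =
      ((gamMat G q y).transpose * hessM G u y) i k := by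
    simp only [mul_apply, transpose_apply, gamMat, of_apply, hG.gam_comm y _ i q]
  have := hcomm i k
  simp only [Matrix.sub_apply] at this ⊢
  rw [hlast, ← mul_add]
  refine congrArg _ ?_
  linarith

/-- Bochner's identity in divergence form. -/
theorem covDiv_bochnerField {u v : Euc4 → ℝ} (hu : ContDiffOn ℝ ∞ u U) (hv : ContDiffOn ℝ ∞ v U)
    (hE : IsEinsteinThree G U) :
    covDiv G (bochnerField G u v) y =
      ((G y)⁻¹ * (hessM G u y).transpose * (G y)⁻¹ * hessM G v y).trace -
        Local.lap G u y * Local.lap G v y + 3 * (dvec u y ⬝ᵥ (G y)⁻¹ *ᵥ dvec v y) := by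
  set N := (G y)⁻¹ with hNdef
  set H := hessM G u y with hHdef
  have hNd := (smooth_inv hG).diff hG.isOpen hy
  have hHd := (smooth_hessM hG hu).diff hG.isOpen hy
  have hL := Local.differentiableAt_of_smooth (smooth_lap hG hu) hG.isOpen hy
  have hv1 : ∀ k, DifferentiableAt ℝ (fun z => dvec v z k) y :=
    diff_vec hG hy (smooth_dvec hG hv)
  have hHN : MDiff (fun z => hessM G u z * (G z)⁻¹) y := hHd.mul hNd
  have hd : ∀ i k, pd (fun z => bochnerField G u v z k) i y =
      ∑ m, ((pdm (hessM G u) i y * N + H * pdm (fun z => (G z)⁻¹) i y) k m * dvec v y m +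
        (H * N) k m * pd (fun z => dvec v z m) i y) -
      (pd (Local.lap G u) i y * dvec v y k + Local.lap G u y * pd (fun z => dvec v z k) i y) := by
    intro i k
    have e : (fun z => bochnerField G u v z k) = fun z =>
        (∑ m, (hessM G u z * (G z)⁻¹) k m * dvec v z m) - Local.lap G u z * dvec v z k :=
      funext fun z => by simp [bochnerField, mulVec_mulVec, mulVec, dotProduct]
    rw [e, Local.pd_sub (DifferentiableAt.fun_sum fun m _ => (hHN k m).fun_mul (hv1 m))
      (hL.fun_mul (hv1 k)), Local.pd_sum _ fun m _ => (hHN k m).fun_mul (hv1 m),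
      Local.pd_mul hL (hv1 k)]
    refine congrArg (· - _) (Finset.sum_congr rfl fun m _ => ?_)
    rw [Local.pd_mul (hHN k m) (hv1 m)]
    have := congrFun (congrFun (Local.pdm_mul (A := hessM G u) (B := fun z => (G z)⁻¹) hHd hNd i) k) m
    exact congrArg (· * _ + _) this
  have key : ∀ i k, pd (fun z => bochnerField G u v z k) i y -
      ∑ m, gam G y m i k * bochnerField G u v y m =
      (∑ q, (pdm (hessM G u) i y - H * gamMat G i y - (gamMat G i y).transpose * H) k q *
        (N *ᵥ dvec v y) q) + ∑ m, (H * N) k m * hessM G v y i m -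
        (pd (Local.lap G u) i y * dvec v y k + Local.lap G u y * hessM G v y i k) := by
    intro i k
    have eb : ∀ m, bochnerField G u v y m =
        ((H * N) *ᵥ dvec v y) m - Local.lap G u y * dvec v y m := fun m => by
      simp [bochnerField, mulVec_mulVec, ← hNdef, ← hHdef]
    have ev : ∀ m, hessM G v y i m =
        pd (fun z => dvec v z m) i y - ((gamMat G i y).transpose *ᵥ dvec v y) m := fun m => by
      simp [hessM, mulVec, dotProduct, gamMat, dvec]
    have eg : ∑ m, gam G y m i k * bochnerField G u v y m =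
        (((gamMat G i y).transpose * (H * N)) *ᵥ dvec v y) k -
          Local.lap G u y * ((gamMat G i y).transpose *ᵥ dvec v y) k := by
      rw [← mulVec_mulVec]
      simp only [eb, mulVec, dotProduct, transpose_apply, gamMat, of_apply, mul_sub,
        Finset.sum_sub_distrib, Finset.mul_sum]
      exact congrArg _ (Finset.sum_congr rfl fun m _ => by ring)
    have e1 : ∑ q, (pdm (hessM G u) i y - H * gamMat G i y - (gamMat G i y).transpose * H) k q *
        (N *ᵥ dvec v y) q =
        ((pdm (hessM G u) i y * N - H * gamMat G i y * N -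
          (gamMat G i y).transpose * H * N) *ᵥ dvec v y) k := by
      simp only [← Matrix.sub_mul, ← mulVec_mulVec]
      rfl
    have e2 : ∑ m, (H * N) k m * hessM G v y i m = (∑ m, (H * N) k m * pd (fun z => dvec v z m) i y) -
        ((H * N * (gamMat G i y).transpose) *ᵥ dvec v y) k := by
      rw [← mulVec_mulVec]
      simp only [ev, mul_sub, Finset.sum_sub_distrib]
      rfl
    rw [hd, eg, e1, e2, ev, pdm_inv hG hy, ← hNdef]
    simp only [sub_mulVec, Pi.sub_apply, Finset.sum_add_distrib]
    have e3 : ∑ m, (pdm (hessM G u) i y * N + H * -(gamMat G i y * N + N * (gamMat G i y).transpose)) k m *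
        dvec v y m = ((pdm (hessM G u) i y * N) *ᵥ dvec v y) k -
          ((H * gamMat G i y * N) *ᵥ dvec v y) k -
          ((H * N * (gamMat G i y).transpose) *ᵥ dvec v y) k := by
      have : pdm (hessM G u) i y * N + H * -(gamMat G i y * N + N * (gamMat G i y).transpose) =
          pdm (hessM G u) i y * N - H * gamMat G i y * N - H * N * (gamMat G i y).transpose := by
        simp only [Matrix.mul_neg, Matrix.mul_add, Matrix.mul_assoc]
        abel
      rw [this]
      simp only [mulVec, dotProduct, Matrix.sub_apply, sub_mul, Finset.sum_sub_distrib]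
    rw [e3, Matrix.mul_assoc (gamMat G i y).transpose H N]
    ring
  unfold covDiv
  simp only [key, ← hNdef, mul_sub, mul_add, Finset.sum_sub_distrib, Finset.sum_add_distrib]
  have s1 : ∑ i, ∑ k, N i k * ∑ q,
      (pdm (hessM G u) i y - H * gamMat G i y - (gamMat G i y).transpose * H) k q *
        (N *ᵥ dvec v y) q =
      ∑ q, (pd (Local.lap G u) q y + 3 * dvec u y q) * (N *ᵥ dvec v y) q := by
    simp only [← ricci_identity hG hy hu hE, ← hNdef, ← hHdef, Finset.mul_sum, Finset.sum_mul]
    rw [Finset.sum_congr rfl fun i _ => Finset.sum_comm, Finset.sum_comm]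
    refine Finset.sum_congr rfl fun q _ => Finset.sum_congr rfl fun i _ =>
      Finset.sum_congr rfl fun k _ => ?_
    have hDsym : (pdm (hessM G u) i y - H * gamMat G i y -
        (gamMat G i y).transpose * H) k q =
        (pdm (hessM G u) i y - H * gamMat G i y - (gamMat G i y).transpose * H) q k := by
      have hpt : (pdm (hessM G u) i y).transpose = pdm (hessM G u) i y := by
        rw [← Local.pdm_transpose]
        exact Local.pdm_congr hG.isOpen hy (fun z hz => hessM_symm hG hz hu) i
      have : (pdm (hessM G u) i y - H * gamMat G i y -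
          (gamMat G i y).transpose * H).transpose =
          pdm (hessM G u) i y - H * gamMat G i y - (gamMat G i y).transpose * H := by
        simp only [transpose_sub, transpose_mul, transpose_transpose, hpt, hHdef,
          hessM_symm hG hy hu]
        abel
      exact congrFun (congrFun this q) k
    rw [hDsym]
    ring
  have s2 : ∑ i, ∑ k, N i k * ∑ m, (H * N) k m * hessM G v y i m =
      (N * H.transpose * N * hessM G v y).trace := by
    have e : ∑ i, ∑ k, N i k * ∑ m, (H * N) k m * hessM G v y i m =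
        (N * (H * N) * (hessM G v y).transpose).trace := by
      simp only [Matrix.trace, Matrix.diag, mul_apply, transpose_apply, Finset.mul_sum,
        Finset.sum_mul]
      refine Finset.sum_congr rfl fun i _ => ?_
      rw [Finset.sum_comm]
      refine Finset.sum_congr rfl fun m _ => Finset.sum_congr rfl fun k _ =>
        Finset.sum_congr rfl fun l _ => ?_
      ring
    rw [e, hHdef, hessM_symm hG hy hu, hessM_symm hG hy hv]
    simp only [Matrix.mul_assoc]
  have s3 : ∑ i, ∑ k, N i k * (pd (Local.lap G u) i y * dvec v y k) =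
      ∑ q, pd (Local.lap G u) q y * (N *ᵥ dvec v y) q := by
    simp only [mulVec, dotProduct, Finset.mul_sum]
    exact Finset.sum_congr rfl fun i _ => Finset.sum_congr rfl fun k _ => by ring
  have s4 : ∑ i, ∑ k, N i k * (Local.lap G u y * hessM G v y i k) =
      Local.lap G u y * Local.lap G v y := by
    show _ = Local.lap G u y * ∑ i, ∑ k, N i k * hessM G v y i k
    simp only [Finset.mul_sum]
    exact Finset.sum_congr rfl fun i _ => Finset.sum_congr rfl fun k _ => by ring
  rw [s1, s2, s3, s4]
  simp only [add_mul, Finset.sum_add_distrib, dotProduct, Finset.mul_sum, mul_assoc]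
  ring

end

end Vale.Agent.P211.Global
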