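import Vale.Agent.P211.Global.Atlas
import Vale.Agent.P211.Local.Weitz.Calc

/-!
# P211: Christoffel symbols, Hessians and curvature under a change of chart
-/

open Matrix
open scoped ContDiff Topology

namespace Vale.Agent.P211.Global

open Local (IsMetricOn pdm MSmooth MDiff gamMat curvature)

noncomputable section

/-- The differential as a vector of components. -/
def dvec (u : Euc4 → ℝ) (y : Euc4) : Fin 4 → ℝ := fun i => pd u i y

/-- The Hessian in coordinates. -/
def hessM (G : Euc4 → M4) (u : Euc4 → ℝ) (y : Euc4) : M4 :=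
  Matrix.of fun i j => pd (pd u j) i y - ∑ k, gam G y k i j * pd u k y

/-- A symmetric compatible connection is the Christoffel connection. -/
theorem gamMat_unique {G : Euc4 → M4} {U : Set Euc4} (hG : IsMetricOn G U) {y : Euc4}
    (hy : y ∈ U) (A : Fin 4 → M4) (hsym : ∀ i k j, A i k j = A j k i)
    (hc : ∀ i, pdm G i y = G y * A i + (A i).transpose * G y) (i : Fin 4) :
    A i = gamMat G i y := by
  set D : Fin 4 → M4 := fun i => G y * (A i - gamMat G i y) with hD
  have hs : ∀ i l j, D i l j = D j l i := by
    intro i l j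
    simp only [hD, mul_apply, Matrix.sub_apply]
    refine Finset.sum_congr rfl fun k _ => ?_
    rw [hsym i k j]
    simp only [gamMat, of_apply, hG.gam_comm y k i j]
  have ha : ∀ i l j, D i l j = -D i j l := by
    intro i l j
    have e : D i + (D i).transpose = 0 := by
      simp only [hD, transpose_mul, transpose_sub, hG.transpose_eq, Matrix.mul_sub]
      have h := (hc i).symm.trans (hG.compat hy i)
      rw [← sub_eq_zero] at h
      rw [← h]
      abel
    have := congrFun (congrFun e l) j
    simp at this
    linarith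
  have h0 : D i = 0 := by
    ext l j
    simp only [Matrix.zero_apply]
    linarith [hs i l j, ha j l i, hs j i l, ha l i j, hs l j i, ha i j l]
  have h1 : (G y)⁻¹ * D i = A i - gamMat G i y := by
    rw [hD, ← Matrix.mul_assoc, nonsing_inv_mul _ (Ne.isUnit (hG.det_ne hy)), Matrix.one_mul]
  rw [h0, Matrix.mul_zero] at h1
  exact sub_eq_zero.1 h1.symm

variable {X : Type*} [TopologicalSpace X] [ChartedSpace Euc4 X] [IsManifold (modelWithCornersSelf ℝ Euc4) ∞ X]
variable {G : X → Euc4 → M4} (h : IsMetricAtlas G) {p q : X} {y : Euc4}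

/-- The pulled back connection matrices. -/
def pullGam (G : X → Euc4 → M4) (p q : X) (i : Fin 4) (y : Euc4) : M4 :=
  ∑ a, jac (tr p q) y a i • gamMat (G q) a (tr p q y)

include h

omit h in
theorem pdm_comp_tr {A : Euc4 → M4} (hA : MSmooth A (chartAt Euc4 q).target)
    (hy : y ∈ (tr p q).source) (i : Fin 4) :
    pdm (fun z => A (tr p q z)) i y = ∑ a, jac (tr p q) y a i • pdm A a (tr p q y) := by
  ext s t
  simp [pdm, pd_comp_tr (hA s t) hy, Matrix.sum_apply]

/-- The transformation of the Christoffel symbols. -/
theorem jac_mul_gamMat (hy : y ∈ (tr p q).source) (i : Fin 4) :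
    jac (tr p q) y * gamMat (G p) i y =
      pullGam G p q i y * jac (tr p q) y + pdm (fun z => jac (tr p q) z) i y := by
  set τ := tr p q
  set J := jac τ y with hJ
  have hU := τ.open_source
  have hq := isMetricOn h q
  have hp := isMetricOn h p
  have hinv : J * J⁻¹ = 1 := mul_nonsing_inv _ (Ne.isUnit (jac_det_ne h hy))
  set A : Fin 4 → M4 :=
    fun i => J⁻¹ * (pullGam G p q i y * J + pdm (fun z => jac τ z) i y) with hA
  have hJA : ∀ i, J * A i = pullGam G p q i y * J + pdm (fun z => jac τ z) i y := fun i => by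
    rw [hA, ← Matrix.mul_assoc, hinv, Matrix.one_mul]
  have hsym : ∀ i k j, A i k j = A j k i := by
    intro i k j
    simp only [hA, mul_apply, Matrix.add_apply, pullGam, Matrix.sum_apply, Matrix.smul_apply,
      smul_eq_mul, gamMat, of_apply, Finset.sum_mul]
    refine Finset.sum_congr rfl fun c _ => congrArg _ ?_
    rw [jac_comm hy c i j, Finset.sum_comm]
    refine congrArg (· + _) (Finset.sum_congr rfl fun a _ => Finset.sum_congr rfl fun b _ => ?_)
    rw [hq.gam_comm _ c a b]
    ring
  have hcomp : ∀ i, pdm (G p) i y = G p y * A i + (A i).transpose * G p y := by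
    intro i
    have hdJ : MDiff (fun z => jac τ z) y := (smooth_jac p q).diff hU hy
    have hdG : MDiff (fun z => G q (τ z)) y := fun s t =>
      Local.differentiableAt_of_smooth (smooth_comp_tr (h.smooth q s t)) hU hy
    have hcp : pdm (G p) i y = pdm (fun z => (jac τ z).transpose * G q (τ z) * jac τ z) i y :=
      Local.pdm_congr hU hy (fun z hz => h.compat p q z hz) i
    rw [hcp, Local.pdm_mul (hdJ.transpose.mul hdG) hdJ, Local.pdm_mul hdJ.transpose hdG,
      Local.pdm_transpose, pdm_comp_tr (h.smooth q) hy, h.compat p q y hy]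
    have e1 : ∑ a, J a i • pdm (G q) a (τ y) =
        G q (τ y) * pullGam G p q i y + (pullGam G p q i y).transpose * G q (τ y) := by
      simp only [pullGam, Matrix.mul_sum, transpose_sum, transpose_smul, Finset.sum_mul,
        Matrix.mul_smul, Matrix.smul_mul, ← Finset.sum_add_distrib, ← smul_add]
      exact Finset.sum_congr rfl fun a _ => by rw [hq.compat (tr_mem_target hy) a]
    rw [e1]
    have e2 : (A i).transpose * (J.transpose * G q (τ y) * J) =
        (J * A i).transpose * G q (τ y) * J := by
      simp only [transpose_mul, Matrix.mul_assoc]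
    rw [e2, Matrix.mul_assoc (J.transpose * G q (τ y)) J, hJA]
    simp only [transpose_add, transpose_mul, Matrix.mul_add, Matrix.add_mul, Matrix.mul_assoc]
    abel
  rw [← gamMat_unique hp hy.1 A hsym hcomp i, hJA]

omit h in
/-- The differential transforms as a covector. -/
theorem dvec_change {u : Euc4 → ℝ} (hu : ContDiffOn ℝ ∞ u (chartAt Euc4 q).target)
    (hy : y ∈ (tr p q).source) :
    dvec (fun z => u (tr p q z)) y = (jac (tr p q) y).transpose *ᵥ dvec u (tr p q y) := by
  funext i
  simp [dvec, pd_comp_tr hu hy, mulVec, dotProduct]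

/-- The Hessian transforms as a two-tensor. -/
theorem hessM_change {u : Euc4 → ℝ} (hu : ContDiffOn ℝ ∞ u (chartAt Euc4 q).target)
    (hy : y ∈ (tr p q).source) :
    hessM (G p) (fun z => u (tr p q z)) y =
      (jac (tr p q) y).transpose * hessM (G q) u (tr p q y) * jac (tr p q) y := by
  have hU := (tr p q).open_source
  ext i j
  have e1 : pd (pd (fun z => u (tr p q z)) j) i y =
      ∑ a, (pdm (fun z => jac (tr p q) z) i y a j * pd u a (tr p q y) +
        jac (tr p q) y a j * ∑ b, jac (tr p q) y b i * pd (pd u a) b (tr p q y)) := by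
    have hd : ∀ a, DifferentiableAt ℝ (fun z => jac (tr p q) z a j) y :=
      fun a => (smooth_jac p q).diff hU hy a j
    have hd' : ∀ a, DifferentiableAt ℝ (fun z => pd u a (tr p q z)) y := fun a =>
      Local.differentiableAt_of_smooth
        (smooth_comp_tr (Local.pd_smooth hu (chartAt Euc4 q).open_target a)) hU hy
    rw [Local.pd_congr (f := pd (fun z => u (tr p q z)) j) hU hy
      (fun z hz => pd_comp_tr hu hz j) i, Local.pd_sum _ fun a _ => (hd a).fun_mul (hd' a)]
    refine Finset.sum_congr rfl fun a _ => ?_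
    rw [Local.pd_mul (hd a) (hd' a),
      pd_comp_tr (Local.pd_smooth hu (chartAt Euc4 q).open_target a) hy i]
    rfl
  have e2 : ∑ k, gam (G p) y k i j * pd (fun z => u (tr p q z)) k y =
      ∑ c, (jac (tr p q) y * gamMat (G p) i y) c j * pd u c (tr p q y) := by
    simp only [pd_comp_tr hu hy, mul_apply, gamMat, of_apply, Finset.mul_sum, Finset.sum_mul]
    rw [Finset.sum_comm]
    exact Finset.sum_congr rfl fun c _ => Finset.sum_congr rfl fun k _ => by ring
  have e3 : ((jac (tr p q) y).transpose * hessM (G q) u (tr p q y) * jac (tr p q) y) i j =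
      (∑ a, ∑ b, jac (tr p q) y a j * (jac (tr p q) y b i * pd (pd u a) b (tr p q y))) -
        ∑ c, (pullGam G p q i y * jac (tr p q) y) c j * pd u c (tr p q y) := by
    simp only [hessM, pullGam, mul_apply, transpose_apply, of_apply, Matrix.sum_apply,
      Matrix.smul_apply, smul_eq_mul, gamMat, mul_sub, sub_mul, Finset.sum_sub_distrib,
      Finset.mul_sum, Finset.sum_mul]
    congr 1
    · exact Finset.sum_congr rfl fun a _ => Finset.sum_congr rfl fun b _ => by ring
    · conv_rhs => rw [Finset.sum_comm]
      refine Finset.sum_congr rfl fun a _ => ?_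
      rw [Finset.sum_comm]
      exact Finset.sum_congr rfl fun c _ => Finset.sum_congr rfl fun b _ => by ring
  have hl : hessM (G p) (fun z => u (tr p q z)) y i j = pd (pd (fun z => u (tr p q z)) j) i y -
      ∑ k, gam (G p) y k i j * pd (fun z => u (tr p q z)) k y := rfl
  rw [hl, e1, e2, e3, jac_mul_gamMat h hy]
  simp only [Matrix.add_apply, add_mul, Finset.sum_add_distrib, Finset.mul_sum]
  abel

/-- The curvature transforms as a tensor. -/
theorem curvature_change (hy : y ∈ (tr p q).source) (i j : Fin 4) :
    jac (tr p q) y * curvature (gamMat (G p)) i j y =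
      (∑ a, ∑ b, (jac (tr p q) y a i * jac (tr p q) y b j) •
        curvature (gamMat (G q)) a b (tr p q y)) * jac (tr p q) y := by
  set τ := tr p q with hτ
  have hU := τ.open_source
  have hJ : MDiff (fun z => jac τ z) y := (smooth_jac p q).diff hU hy
  have hdJ : ∀ s, MDiff (pdm (fun z => jac τ z) s) y := fun s =>
    ((smooth_jac p q).pdm hU s).diff hU hy
  have hgq : ∀ a, MSmooth (gamMat (G q) a) (chartAt Euc4 q).target :=
    fun a => (isMetricOn h q).smooth_gamMat a
  have hcq : ∀ a, MDiff (fun z => gamMat (G q) a (τ z)) y := fun a s t =>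
    Local.differentiableAt_of_smooth (smooth_comp_tr (hgq a s t)) hU hy
  have hB : ∀ s, MDiff (pullGam G p q s) y := fun s c d => by
    simp only [pullGam, Matrix.sum_apply, Matrix.smul_apply, smul_eq_mul]
    exact DifferentiableAt.fun_sum fun a _ => (hJ a s).fun_mul (hcq a c d)
  have hg : ∀ s, MDiff (gamMat (G p) s) y := fun s =>
    (isMetricOn h p).diff_gamMat hy.1 s
  have key : ∀ s t, jac τ y * pdm (gamMat (G p) t) s y =
      pdm (pullGam G p q t) s y * jac τ y + pullGam G p q t y * pdm (fun z => jac τ z) s y +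
        pdm (pdm (fun z => jac τ z) t) s y - pdm (fun z => jac τ z) s y * gamMat (G p) t y := by
    intro s t
    have e := Local.pdm_congr (A := fun z => jac τ z * gamMat (G p) t z)
      (B := fun z => pullGam G p q t z * jac τ z + pdm (fun w => jac τ w) t z) hU hy
      (fun z hz => jac_mul_gamMat h hz t) s
    rw [Local.pdm_mul hJ (hg t), Local.pdm_add ((hB t).mul hJ) (hdJ t),
      Local.pdm_mul (hB t) hJ] at e
    rw [← e]
    abel
  have d1 : ∀ s, pdm (fun z => jac τ z) s y =
      jac τ y * gamMat (G p) s y - pullGam G p q s y * jac τ y := fun s => by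
    rw [jac_mul_gamMat h hy s, add_sub_cancel_left]
  have h1 : jac τ y * curvature (gamMat (G p)) i j y =
      curvature (pullGam G p q) i j y * jac τ y := by
    unfold curvature
    rw [Matrix.mul_sub, Matrix.mul_add, Matrix.mul_sub, key i j, key j i,
      Local.pdm_comm (smooth_jac p q) hU hy i j, d1 i, d1 j]
    simp only [Matrix.mul_sub, Matrix.sub_mul, Matrix.add_mul, Matrix.mul_assoc]
    abel
  rw [h1]
  refine congrArg (· * jac τ y) ?_
  have hd : ∀ s t, pdm (pullGam G p q t) s y = ∑ a,
      (pdm (fun z => jac τ z) s y a t • gamMat (G q) a (τ y) +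
        jac τ y a t • ∑ b, jac τ y b s • pdm (gamMat (G q) a) b (τ y)) := by
    intro s t
    ext c d
    simp only [pdm, of_apply, pullGam, Matrix.sum_apply, Matrix.smul_apply, Matrix.add_apply,
      smul_eq_mul, ← hτ]
    rw [Local.pd_sum _ fun a _ => (hJ a t).fun_mul (hcq a c d)]
    refine Finset.sum_congr rfl fun a _ => ?_
    rw [Local.pd_mul (hJ a t) (hcq a c d), pd_comp_tr (hgq a c d) hy s]
  have hsym : ∀ a, pdm (fun z => jac τ z) i y a j = pdm (fun z => jac τ z) j y a i :=
    fun a => jac_comm hy a i j
  have P1 : pullGam G p q i y * pullGam G p q j y = ∑ a, ∑ b, (jac τ y a i * jac τ y b j) •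
      (gamMat (G q) a (τ y) * gamMat (G q) b (τ y)) := by
    simp only [pullGam, ← hτ, Finset.sum_mul_sum, Matrix.smul_mul, Matrix.mul_smul, smul_smul]
    exact Finset.sum_congr rfl fun a _ => Finset.sum_congr rfl fun b _ => by rw [mul_comm]
  have P2 : pullGam G p q j y * pullGam G p q i y = ∑ a, ∑ b, (jac τ y a i * jac τ y b j) •
      (gamMat (G q) b (τ y) * gamMat (G q) a (τ y)) := by
    simp only [pullGam, ← hτ, Finset.sum_mul_sum, Matrix.smul_mul, Matrix.mul_smul, smul_smul]
    rw [Finset.sum_comm]
  have P3 : pdm (pullGam G p q j) i y =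
      (∑ a, pdm (fun z => jac τ z) j y a i • gamMat (G q) a (τ y)) +
        ∑ a, ∑ b, (jac τ y a i * jac τ y b j) • pdm (gamMat (G q) b) a (τ y) := by
    simp only [hd, hsym, Finset.sum_add_distrib, Finset.smul_sum, smul_smul]
    congr 1
    rw [Finset.sum_comm]
    exact Finset.sum_congr rfl fun a _ => Finset.sum_congr rfl fun b _ => by rw [mul_comm]
  have P4 : pdm (pullGam G p q i) j y =
      (∑ a, pdm (fun z => jac τ z) j y a i • gamMat (G q) a (τ y)) +
        ∑ a, ∑ b, (jac τ y a i * jac τ y b j) • pdm (gamMat (G q) a) b (τ y) := by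
    simp only [hd, Finset.sum_add_distrib, Finset.smul_sum, smul_smul]
  simp only [curvature, P1, P2, P3, P4, smul_sub, smul_add, Finset.sum_sub_distrib,
    Finset.sum_add_distrib]
  abel

/-- The covariant curvature tensor transforms as a tensor. -/
theorem riem_change (hy : y ∈ (tr p q).source) :
    riem (G p) y = inFrame (jac (tr p q) y) (riem (G q) (tr p q y)) := by
  funext i j k l
  rw [Local.riem_eq, h.compat p q y hy, Matrix.mul_assoc _ (jac (tr p q) y),
    curvature_change h hy]
  have e : (jac (tr p q) y).transpose * G q (tr p q y) *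
      ((∑ a, ∑ b, (jac (tr p q) y a i * jac (tr p q) y b j) •
        curvature (gamMat (G q)) a b (tr p q y)) * jac (tr p q) y) =
      ∑ a, ∑ b, (jac (tr p q) y a i * jac (tr p q) y b j) • ((jac (tr p q) y).transpose *
        (G q (tr p q y) * curvature (gamMat (G q)) a b (tr p q y)) * jac (tr p q) y) := by
    simp only [Finset.mul_sum, Finset.sum_mul, Matrix.mul_smul, Matrix.smul_mul, Matrix.mul_assoc]
  rw [e]
  simp only [inFrame, Local.riem_eq, Matrix.sum_apply, Matrix.smul_apply, smul_eq_mul]
  refine Finset.sum_congr rfl fun a _ => Finset.sum_congr rfl fun b _ => ?_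
  generalize G q (tr p q y) * curvature (gamMat (G q)) a b (tr p q y) = R
  simp only [mul_apply, transpose_apply, Finset.mul_sum, Finset.sum_mul]
  rw [Finset.sum_comm]
  exact Finset.sum_congr rfl fun c _ => Finset.sum_congr rfl fun d _ => by ring

end

end Vale.Agent.P211.Global
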