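import Vale.Agent.P211.Global.Point

/-!
# P211: partition of unity, the volume measure and integration in one chart
-/

open Matrix MeasureTheory
open scoped ContDiff Topology

namespace Vale.Agent.P211.Global

noncomputable section

variable {X : Type*} [TopologicalSpace X] [ChartedSpace Euc4 X]
  [IsManifold (modelWithCornersSelf ℝ Euc4) ∞ X] [T2Space X] [CompactSpace X]

/-- A partition of unity subordinate to the charts. -/
def pou (X : Type*) [TopologicalSpace X] [ChartedSpace Euc4 X]
    [IsManifold (modelWithCornersSelf ℝ Euc4) ∞ X] [T2Space X] [CompactSpace X] :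
    SmoothPartitionOfUnity X (modelWithCornersSelf ℝ Euc4) X Set.univ :=
  Classical.choose
    (SmoothPartitionOfUnity.exists_isSubordinate_chartAt_source (modelWithCornersSelf ℝ Euc4) X)

/-- The functions of the partition of unity. -/
def chi (p : X) (x : X) : ℝ := pou X p x

theorem finite_points : {p : X | (Function.support (chi p)).Nonempty}.Finite :=
  (pou X).locallyFinite.finite_nonempty_of_compact

/-- The charts used by the partition of unity. -/
def pts (X : Type*) [TopologicalSpace X] [ChartedSpace Euc4 X]
    [IsManifold (modelWithCornersSelf ℝ Euc4) ∞ X] [T2Space X] [CompactSpace X] : Finset X :=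
  (finite_points (X := X)).toFinset

theorem chi_tsupport (p : X) : tsupport (chi p) ⊆ (chartAt Euc4 p).source :=
  Classical.choose_spec
    (SmoothPartitionOfUnity.exists_isSubordinate_chartAt_source
      (modelWithCornersSelf ℝ Euc4) X) p

theorem chi_nonneg (p x : X) : 0 ≤ chi p x := (pou X).nonneg p x

theorem chi_continuous (p : X) : Continuous (chi p) :=
  (pou X p).contMDiff.continuous

theorem sum_chi (x : X) : ∑ p ∈ pts X, chi p x = 1 := by
  refine (pou X).sum_finsupport' x (Set.mem_univ x) fun p hp => ?_
  simp only [pts, Set.Finite.mem_toFinset, Set.mem_ofPred_eq]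
  exact ⟨x, ((pou X).mem_finsupport x).1 hp⟩

theorem smooth_chi (p : X) : Smooth (chi p) := by
  intro q
  have h1 : ContMDiffOn (modelWithCornersSelf ℝ Euc4) (modelWithCornersSelf ℝ Euc4) ∞
      (chartAt Euc4 q).symm (chartAt Euc4 q).target := contMDiffOn_chart_symm
  exact contMDiffOn_iff_contDiffOn.1 ((pou X p).contMDiff.comp_contMDiffOn h1)

theorem isCompact_chart_tsupport (p : X) :
    IsCompact (chartAt Euc4 p '' tsupport (chi p)) :=
  (isClosed_tsupport _).isCompact.image_of_continuousOn
    ((chartAt Euc4 p).continuousOn.mono (chi_tsupport p))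

/-- The volume density in the chart at `p`. -/
def dens (G : X → Euc4 → M4) (p : X) (y : Euc4) : ℝ := Real.sqrt (G p y).det

variable [MeasurableSpace X] [BorelSpace X]

/-- The part of the volume seen by one chart. -/
def chartVol (G : X → Euc4 → M4) (p : X) : Measure X :=
  ((volume.restrict (chartAt Euc4 p).target).withDensity
    fun y => ENNReal.ofReal (rd p (chi p) y * dens G p y)).map (chartAt Euc4 p).symm

/-- The volume measure. -/
def vol (G : X → Euc4 → M4) : Measure X := ∑ p ∈ pts X, chartVol G p

variable {G : X → Euc4 → M4} (h : IsMetricAtlas G)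
include h

omit [IsManifold (modelWithCornersSelf ℝ Euc4) ∞ X] [T2Space X] [CompactSpace X]
  [MeasurableSpace X] [BorelSpace X] in
theorem dens_pos {p : X} {y : Euc4} (hy : y ∈ (chartAt Euc4 p).target) : 0 < dens G p y :=
  Real.sqrt_pos.2 (h.posDef p y hy).det_pos

omit [IsManifold (modelWithCornersSelf ℝ Euc4) ∞ X] [T2Space X] [CompactSpace X]
  [MeasurableSpace X] [BorelSpace X] in
theorem smooth_dens (p : X) : ContDiffOn ℝ ∞ (dens G p) (chartAt Euc4 p).target := by
  unfold dens
  refine ContDiffOn.sqrt ?_ fun y hy => (h.posDef p y hy).det_pos.ne'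
  simp only [Matrix.det_apply']
  exact ContDiffOn.sum fun σ _ => contDiffOn_const.mul
    (contDiffOn_prod fun l _ => h.smooth p _ _)

omit [MeasurableSpace X] [BorelSpace X] in
theorem aemeasurable_density (p : X) : AEMeasurable
    (fun y => ENNReal.ofReal (rd p (chi p) y * dens G p y))
    (volume.restrict (chartAt Euc4 p).target) :=
  (((smooth_chi p p).continuousOn.mul (smooth_dens h p).continuousOn).aemeasurable
    (chartAt Euc4 p).open_target.measurableSet).ennreal_ofReal

omit [IsManifold (modelWithCornersSelf ℝ Euc4) ∞ X] [T2Space X] [CompactSpace X]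
  [MeasurableSpace X] [BorelSpace X] h in
/-- A continuous function vanishing outside a compact part of the target is integrable on it. -/
theorem integrableOn_target {p : X} {g : Euc4 → ℝ} {K : Set Euc4}
    (hg : ContinuousOn g (chartAt Euc4 p).target) (hK : IsCompact K)
    (hKt : K ⊆ (chartAt Euc4 p).target)
    (h0 : ∀ y ∈ (chartAt Euc4 p).target, y ∉ K → g y = 0) :
    IntegrableOn g (chartAt Euc4 p).target :=
  IntegrableOn.of_forall_sdiff_eq_zero ((hg.mono hKt).integrableOn_compact hK)
    (chartAt Euc4 p).open_target.measurableSet fun y hy => h0 y hy.1 hy.2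

omit [MeasurableSpace X] [BorelSpace X] in
theorem integrableOn_density (p : X) {f : Euc4 → ℝ}
    (hf : ContinuousOn f (chartAt Euc4 p).target) :
    IntegrableOn (fun y => rd p (chi p) y * dens G p y * f y) (chartAt Euc4 p).target := by
  refine integrableOn_target
    (((smooth_chi p p).continuousOn.mul (smooth_dens h p).continuousOn).mul hf)
    (isCompact_chart_tsupport p) ?_ fun y hy hyK => ?_
  · rintro _ ⟨x, hx, rfl⟩
    exact (chartAt Euc4 p).map_source (chi_tsupport p hx)
  · have h0 : rd p (chi p) y = 0 := by
      show chi p ((chartAt Euc4 p).symm y) = 0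
      refine image_eq_zero_of_notMem_tsupport fun hm => hyK ⟨_, hm, ?_⟩
      exact (chartAt Euc4 p).right_inv hy
    rw [h0, zero_mul, zero_mul]

theorem isFiniteMeasure_vol : IsFiniteMeasure (vol G) := by
  refine ⟨?_⟩
  rw [vol, Measure.coe_finsetSum, Finset.sum_apply]
  refine ENNReal.sum_lt_top.2 fun p _ => ?_
  have hsymm : AEMeasurable (chartAt Euc4 p).symm
      ((volume.restrict (chartAt Euc4 p).target).withDensity
        fun y => ENNReal.ofReal (rd p (chi p) y * dens G p y)) :=
    ((chartAt Euc4 p).continuousOn_symm.aemeasurable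
      (chartAt Euc4 p).open_target.measurableSet).mono_ac (withDensity_absolutelyContinuous _ _)
  rw [chartVol, Measure.map_apply_of_aemeasurable hsymm MeasurableSet.univ, Set.preimage_univ,
    withDensity_apply _ MeasurableSet.univ, Measure.restrict_univ]
  have hi := integrableOn_density h p (f := fun _ => (1 : ℝ)) continuousOn_const
  simp only [mul_one] at hi
  calc ∫⁻ y in (chartAt Euc4 p).target, ENNReal.ofReal (rd p (chi p) y * dens G p y)
      ≤ ∫⁻ y in (chartAt Euc4 p).target, ‖rd p (chi p) y * dens G p y‖ₑ :=
        lintegral_mono fun y => Real.ofReal_le_enorm _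
    _ < ⊤ := hi.hasFiniteIntegral

theorem integrable_continuous {f : X → ℝ} (hf : Continuous f) : Integrable f (vol G) := by
  have := isFiniteMeasure_vol h
  obtain ⟨C, hC⟩ := isCompact_univ.exists_bound_of_continuousOn hf.continuousOn
  exact Integrable.of_bound hf.aestronglyMeasurable C
    (Filter.Eventually.of_forall fun x => hC x (Set.mem_univ x))

theorem integral_vol {f : X → ℝ} (hf : Continuous f) :
    ∫ x, f x ∂vol G = ∑ c ∈ pts X,
      ∫ y in (chartAt Euc4 c).target, rd c (chi c) y * dens G c y * rd c f y := by
  have := isFiniteMeasure_vol h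
  have hint : ∀ c ∈ pts X, Integrable f (chartVol G c) := fun c hc =>
    (integrable_continuous h hf).mono_measure (by
      rw [vol]
      exact Finset.single_le_sum (f := fun c => chartVol G c)
        (fun _ _ => Measure.zero_le _) hc)
  rw [vol, integral_finsetSum_measure hint]
  refine Finset.sum_congr rfl fun c _ => ?_
  have hsymm : AEMeasurable (chartAt Euc4 c).symm
      ((volume.restrict (chartAt Euc4 c).target).withDensity
        fun y => ENNReal.ofReal (rd c (chi c) y * dens G c y)) :=
    ((chartAt Euc4 c).continuousOn_symm.aemeasurable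
      (chartAt Euc4 c).open_target.measurableSet).mono_ac (withDensity_absolutelyContinuous _ _)
  rw [chartVol, integral_map hsymm hf.aestronglyMeasurable,
    integral_withDensity_eq_integral_toReal_smul₀ (aemeasurable_density h c)
      (Filter.Eventually.of_forall fun _ => ENNReal.ofReal_lt_top)]
  refine setIntegral_congr_fun (chartAt Euc4 c).open_target.measurableSet fun y hy => ?_
  simp only [rd, smul_eq_mul]
  rw [ENNReal.toReal_ofReal (mul_nonneg (chi_nonneg _ _) (dens_pos h hy).le)]

omit [IsManifold (modelWithCornersSelf ℝ Euc4) ∞ X] [T2Space X] [CompactSpace X]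
  [MeasurableSpace X] [BorelSpace X] in
theorem dens_change {p q : X} {y : Euc4} (hy : y ∈ (tr p q).source) :
    dens G p y = |(jac (tr p q) y).det| * dens G q (tr p q y) := by
  rw [dens, dens, h.compat p q y hy, det_mul, det_mul, det_transpose,
    mul_comm (jac (tr p q) y).det, mul_assoc, Real.sqrt_mul (h.posDef q _ (tr_mem_target hy)).det_pos.le,
    Real.sqrt_mul_self_eq_abs, mul_comm]

omit [T2Space X] [CompactSpace X] [MeasurableSpace X] [BorelSpace X] h in
theorem det_fderiv_tr {p q : X} {y : Euc4} (hy : y ∈ (tr p q).source) :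
    (fderiv ℝ (tr p q) y).det = (jac (tr p q) y).det := by
  rw [ContinuousLinearMap.det,
    ← LinearMap.det_toMatrix (EuclideanSpace.basisFun (Fin 4) ℝ).toBasis]
  refine congrArg Matrix.det ?_
  ext i j
  simp [LinearMap.toMatrix_apply, coord_fderiv (tr_diff hy), jac, pd]

/-- A function supported in one chart is integrated there against the density. -/
theorem integral_eq_chart (p : X) {f : X → ℝ} (hf : Continuous f) {K : Set X}
    (hK : IsCompact K) (hKs : K ⊆ (chartAt Euc4 p).source) (h0 : ∀ x, x ∉ K → f x = 0) :
    ∫ x, f x ∂vol G = ∫ y in (chartAt Euc4 p).target, dens G p y * rd p f y := by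
  set Tp := (chartAt Euc4 p).target with hTp
  have hcont : ∀ q : X, ContinuousOn (rd q f) (chartAt Euc4 q).target := fun q =>
    hf.comp_continuousOn (chartAt Euc4 q).continuousOn_symm
  have hzero : ∀ y ∈ Tp, y ∉ chartAt Euc4 p '' K → rd p f y = 0 := fun y hy hyK =>
    h0 _ fun hm => hyK ⟨_, hm, (chartAt Euc4 p).right_inv hy⟩
  have hterm : ∀ c,
      ∫ y in (chartAt Euc4 c).target, rd c (chi c) y * dens G c y * rd c f y =
        ∫ y in Tp, chi c ((chartAt Euc4 p).symm y) * (dens G p y * rd p f y) := by
    intro c
    rw [setIntegral_eq_of_subset_of_forall_sdiff_eq_zero (chartAt Euc4 c).open_target.measurableSet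
      (s := (tr c p).source) (fun y hy => hy.1) fun y hy => by
        have : rd c f y = 0 := h0 _ fun hm => hy.2 ⟨hy.1, hKs hm⟩
        rw [this, mul_zero],
      setIntegral_eq_of_subset_of_forall_sdiff_eq_zero (chartAt Euc4 p).open_target.measurableSet
      (s := (tr p c).source) (fun y hy => hy.1) fun y hy => by
        have : chi c ((chartAt Euc4 p).symm y) = 0 :=
          image_eq_zero_of_notMem_tsupport fun hm => hy.2 ⟨hy.1, chi_tsupport c hm⟩
        rw [this, zero_mul]]
    have himg : tr p c '' (tr p c).source = (tr c p).source :=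
      (tr p c).image_source_eq_target
    conv_lhs => rw [← himg]
    rw [integral_image_eq_integral_abs_det_fderiv_smul volume
      (tr p c).open_source.measurableSet
      (fun y hy => (tr_diff hy).hasFDerivAt.hasFDerivWithinAt) (tr p c).injOn]
    refine setIntegral_congr_fun (tr p c).open_source.measurableSet fun y hy => ?_
    simp only [det_fderiv_tr hy, smul_eq_mul, rd, symm_tr hy, dens_change h hy]
    ring
  rw [integral_vol h hf, Finset.sum_congr rfl fun c _ => hterm c,
    ← integral_finsetSum _ fun c _ => ?_]
  · refine setIntegral_congr_fun (chartAt Euc4 p).open_target.measurableSet fun y _ => ?_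
    simp only [← Finset.sum_mul, sum_chi, one_mul]
  · refine integrableOn_target
      (((chi_continuous c).comp_continuousOn (chartAt Euc4 p).continuousOn_symm).mul
        ((smooth_dens h p).continuousOn.mul (hcont p)))
      (hK.image_of_continuousOn ((chartAt Euc4 p).continuousOn.mono hKs)) ?_ fun y hy hyK => by
        rw [hzero y hy hyK, mul_zero, mul_zero]
    rintro _ ⟨x, hx, rfl⟩
    exact (chartAt Euc4 p).map_source (hKs hx)

theorem isOpenPosMeasure_vol : (vol G).IsOpenPosMeasure := by
  refine ⟨fun U hU hne => ?_⟩
  obtain ⟨x, hx⟩ := hne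
  obtain ⟨c, hc, hcx⟩ : ∃ c ∈ pts X, 0 < chi c x := by
    by_contra hcon
    push Not at hcon
    linarith [sum_chi x, Finset.sum_nonpos hcon]
  have hxs : x ∈ (chartAt Euc4 c).source :=
    chi_tsupport c (subset_tsupport _ hcx.ne')
  set O := (chartAt Euc4 c).target ∩
    (chartAt Euc4 c).symm ⁻¹' (U ∩ {z | 0 < chi c z}) with hOdef
  have hO : IsOpen O := (chartAt Euc4 c).isOpen_inter_preimage_symm
    (hU.inter (isOpen_lt continuous_const (chi_continuous c)))
  have hOne : O.Nonempty := ⟨chartAt Euc4 c x, (chartAt Euc4 c).map_source hxs, by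
    simp [(chartAt Euc4 c).left_inv hxs, hx, hcx]⟩
  have hpos : ((volume.restrict (chartAt Euc4 c).target).withDensity
      fun y => ENNReal.ofReal (rd c (chi c) y * dens G c y)) O ≠ 0 := by
    rw [Ne, withDensity_apply_eq_zero' (aemeasurable_density h c)]
    have e : {y | ENNReal.ofReal (rd c (chi c) y * dens G c y) ≠ 0} ∩ O = O :=
      Set.inter_eq_right.2 fun y hy => by
        simpa [rd] using mul_pos hy.2.2 (dens_pos h hy.1)
    rw [e, Measure.restrict_apply hO.measurableSet, Set.inter_eq_left.2 fun y hy => hy.1]
    exact (hO.measure_pos volume hOne).ne'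
  intro hzero
  have hc0 : chartVol G c U = 0 := by
    refine le_antisymm (hzero ▸ ?_) zero_le
    rw [vol, Measure.coe_finsetSum, Finset.sum_apply]
    exact Finset.single_le_sum (f := fun c => chartVol G c U) (fun _ _ => zero_le) hc
  apply hpos
  refine le_antisymm ?_ zero_le
  rw [← hc0, chartVol, Measure.map_apply_of_aemeasurable
    (((chartAt Euc4 c).continuousOn_symm.aemeasurable
      (chartAt Euc4 c).open_target.measurableSet).mono_ac (withDensity_absolutelyContinuous _ _))
    hU.measurableSet]
  exact measure_mono fun y hy => hy.2.1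

end

end Vale.Agent.P211.Global
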