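import Vale.Agent.P211.Global.Calc

/-!
# P211: the differential calculus of gradient and Hessian on the manifold
-/

open Matrix
open scoped ContDiff Topology

namespace Vale.Agent.P211.Global

noncomputable section

/-- The partial derivative in the `i`-th of finitely many variables. -/
theorem pd_comp_pi {n : ℕ} {u : Fin n → Euc4 → ℝ} {Φ : (Fin n → ℝ) → ℝ} {y : Euc4}
    (hu : ∀ a, DifferentiableAt ℝ (u a) y) (hΦ : DifferentiableAt ℝ Φ fun a => u a y) (i : Fin 4) :
    pd (fun z => Φ fun a => u a z) i y =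
      ∑ a, fderiv ℝ Φ (fun b => u b y) (Pi.single a 1) * pd (u a) i y := by
  have h1 : HasFDerivAt (fun z a => u a z) (ContinuousLinearMap.pi fun a => fderiv ℝ (u a) y) y :=
    hasFDerivAt_pi.2 fun a => (hu a).hasFDerivAt
  have h2 : HasFDerivAt (fun z => Φ fun a => u a z)
      ((fderiv ℝ Φ fun a => u a y).comp (ContinuousLinearMap.pi fun a => fderiv ℝ (u a) y)) y :=
    hΦ.hasFDerivAt.comp (f := fun z a => u a z) y h1
  rw [pd, h2.fderiv, ContinuousLinearMap.comp_apply]
  set v := (ContinuousLinearMap.pi fun a => fderiv ℝ (u a) y) (EuclideanSpace.single i 1)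
  have hv : v = ∑ a, v a • Pi.single (M := fun _ => ℝ) a 1 := by
    funext k
    simp [Finset.sum_apply, Pi.single_apply]
  conv_lhs => rw [hv, map_sum]
  refine Finset.sum_congr rfl fun a _ => ?_
  rw [map_smul, smul_eq_mul, mul_comm]
  rfl

theorem part_comm {n : ℕ} {Φ : (Fin n → ℝ) → ℝ} (hΦ : ContDiff ℝ ∞ Φ) (i j : Fin n)
    (z : Fin n → ℝ) :
    fderiv ℝ (fun w => fderiv ℝ Φ w (Pi.single i 1)) z (Pi.single j 1) =
      fderiv ℝ (fun w => fderiv ℝ Φ w (Pi.single j 1)) z (Pi.single i 1) := by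
  have h1 : DifferentiableAt ℝ (fderiv ℝ Φ) z :=
    ((hΦ.fderiv_right (m := ∞) (by simp)).differentiable (by simp)).differentiableAt
  have e : ∀ a b, fderiv ℝ (fun w => fderiv ℝ Φ w (Pi.single a 1)) z (Pi.single b 1) =
      fderiv ℝ (fderiv ℝ Φ) z (Pi.single b 1) (Pi.single a 1) := by
    intro a b
    rw [fderiv_clm_apply h1 (differentiableAt_const _)]
    simp
  rw [e, e]
  exact hΦ.contDiffAt.isSymmSndFDerivAt
    (by simp only [minSmoothness_of_isRCLikeNormedField]; exact WithTop.coe_le_coe.2 le_top) _ _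

variable {X : Type*} [TopologicalSpace X] [ChartedSpace Euc4 X]

theorem smooth_comp {n : ℕ} {u : Fin n → X → ℝ} {Φ : (Fin n → ℝ) → ℝ} (hu : ∀ a, Smooth (u a))
    (hΦ : ContDiff ℝ ∞ Φ) : Smooth fun x => Φ fun a => u a x :=
  fun p => hΦ.comp_contDiffOn (f := fun y a => rd p (u a) y) (contDiffOn_pi.2 fun a => hu a p)

variable {G : X → Euc4 → M4} (h : IsMetricAtlas G)
include h

theorem ptFrame_inv (x : X) :
    ptFrame h x * (ptFrame h x).transpose = (G x (chartAt Euc4 x x))⁻¹ := by
  refine (Matrix.inv_eq_left_inv ?_).symm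
  rw [Matrix.mul_assoc]
  exact mul_eq_one_comm.1 (ptFrame_spec h x).1

theorem hess_symm {u : X → ℝ} (hu : Smooth u) (x : X) :
    (hess h u x).transpose = hess h u x := by
  simp only [hess, transpose_mul, transpose_transpose,
    hessM_symm (isMetricOn h x) ((chartAt Euc4 x).map_source (mem_chart_source Euc4 x)) (hu x),
    Matrix.mul_assoc]

variable {n : ℕ} {u : Fin n → X → ℝ} {Φ : (Fin n → ℝ) → ℝ}

theorem grad_comp (hu : ∀ a, Smooth (u a)) (hΦ : ContDiff ℝ ∞ Φ) (x : X) :
    grad h (fun z => Φ fun a => u a z) x =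
      ∑ a, fderiv ℝ Φ (fun b => u b x) (Pi.single a 1) • grad h (u a) x := by
  have hy := (chartAt Euc4 x).map_source (mem_chart_source Euc4 x)
  have he : ∀ b, rd x (u b) (chartAt Euc4 x x) = u b x := fun b => by
    rw [rd, (chartAt Euc4 x).left_inv (mem_chart_source Euc4 x)]
  have hd : dvec (rd x fun z => Φ fun a => u a z) (chartAt Euc4 x x) =
      ∑ a, fderiv ℝ Φ (fun b => u b x) (Pi.single a 1) • dvec (rd x (u a)) (chartAt Euc4 x x) := by
    funext i
    rw [Finset.sum_apply]
    show pd (fun y => Φ fun a => rd x (u a) y) i _ = _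
    rw [pd_comp_pi (fun a => Local.differentiableAt_of_smooth (hu a x)
      (chartAt Euc4 x).open_target hy) ((hΦ.differentiable (by simp)).differentiableAt)]
    simp only [he, Pi.smul_apply, smul_eq_mul, dvec]
  simp only [grad, hd, mulVec_sum, mulVec_smul]

theorem hess_comp (hu : ∀ a, Smooth (u a)) (hΦ : ContDiff ℝ ∞ Φ) (x : X) :
    hess h (fun z => Φ fun a => u a z) x =
      (∑ a, fderiv ℝ Φ (fun b => u b x) (Pi.single a 1) • hess h (u a) x) +
        ∑ a, ∑ b, fderiv ℝ (fun w => fderiv ℝ Φ w (Pi.single a 1)) (fun c => u c x)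
          (Pi.single b 1) • vecMulVec (grad h (u a) x) (grad h (u b) x) := by
  set y := chartAt Euc4 x x
  have hy : y ∈ (chartAt Euc4 x).target := (chartAt Euc4 x).map_source (mem_chart_source Euc4 x)
  have hU := (chartAt Euc4 x).open_target
  have he : ∀ b, rd x (u b) y = u b x := fun b => by
    rw [rd, (chartAt Euc4 x).left_inv (mem_chart_source Euc4 x)]
  set U' : Fin n → Euc4 → ℝ := fun a => rd x (u a) with hU'
  have hΦ' : ∀ a, ContDiff ℝ ∞ fun w => fderiv ℝ Φ w (Pi.single a 1) := fun a =>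
    (hΦ.fderiv_right (m := ∞) (by simp)).clm_apply contDiff_const
  have h1 : ∀ j, ∀ z ∈ (chartAt Euc4 x).target, pd (rd x fun w => Φ fun a => u a w) j z =
      ∑ a, fderiv ℝ Φ (fun b => U' b z) (Pi.single a 1) * pd (U' a) j z := fun j z hz =>
    pd_comp_pi (fun a => Local.differentiableAt_of_smooth (hu a x) hU hz)
      (hΦ.differentiable (by simp)).differentiableAt j
  have hM : hessM (G x) (rd x fun w => Φ fun a => u a w) y =
      (∑ a, fderiv ℝ Φ (fun b => u b x) (Pi.single a 1) • hessM (G x) (U' a) y) +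
        ∑ a, ∑ b, fderiv ℝ (fun w => fderiv ℝ Φ w (Pi.single a 1)) (fun c => u c x)
          (Pi.single b 1) • vecMulVec (dvec (U' a) y) (dvec (U' b) y) := by
    ext i j
    have hd : ∀ a, DifferentiableAt ℝ (fun z => fderiv ℝ Φ (fun b => U' b z) (Pi.single a 1)) y :=
      fun a => Local.differentiableAt_of_smooth
        ((hΦ' a).comp_contDiffOn (f := fun z b => U' b z) (contDiffOn_pi.2 fun b => hu b x)) hU hy
    have hd' : ∀ a, DifferentiableAt ℝ (fun z => pd (U' a) j z) y := fun a =>
      Local.differentiableAt_of_smooth (Local.pd_smooth (hu a x) hU j) hU hy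
    have h2 : pd (pd (rd x fun w => Φ fun a => u a w) j) i y =
        ∑ a, ((∑ b, fderiv ℝ (fun w => fderiv ℝ Φ w (Pi.single a 1)) (fun c => u c x)
          (Pi.single b 1) * pd (U' b) i y) * pd (U' a) j y +
          fderiv ℝ Φ (fun b => u b x) (Pi.single a 1) * pd (pd (U' a) j) i y) := by
      rw [Local.pd_congr (f := pd (rd x fun w => Φ fun a => u a w) j) hU hy (h1 j) i,
        Local.pd_sum _ fun a _ => (hd a).fun_mul (hd' a)]
      refine Finset.sum_congr rfl fun a _ => ?_
      rw [Local.pd_mul (hd a) (hd' a),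
        pd_comp_pi (Φ := fun w => fderiv ℝ Φ w (Pi.single a 1))
          (fun b => Local.differentiableAt_of_smooth (hu b x) hU hy)
          ((hΦ' a).differentiable (by simp)).differentiableAt]
      simp only [hU', he]
    show pd (pd (rd x fun w => Φ fun a => u a w) j) i y -
      ∑ k, gam (G x) y k i j * pd (rd x fun w => Φ fun a => u a w) k y = _
    simp only [h2, h1 _ y hy]
    have e3 : ∑ k, gam (G x) y k i j *
        ∑ a, fderiv ℝ Φ (fun b => U' b y) (Pi.single a 1) * pd (U' a) k y =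
        ∑ a, fderiv ℝ Φ (fun b => u b x) (Pi.single a 1) *
          ∑ k, gam (G x) y k i j * pd (U' a) k y := by
      simp only [hU', he, Finset.mul_sum]
      rw [Finset.sum_comm]
      exact Finset.sum_congr rfl fun a _ => Finset.sum_congr rfl fun k _ => by ring
    have e4 : ∑ a, (∑ b, fderiv ℝ (fun w => fderiv ℝ Φ w (Pi.single a 1)) (fun c => u c x)
          (Pi.single b 1) * pd (U' b) i y) * pd (U' a) j y =
        ∑ a, ∑ b, fderiv ℝ (fun w => fderiv ℝ Φ w (Pi.single a 1)) (fun c => u c x)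
          (Pi.single b 1) * (pd (U' a) i y * pd (U' b) j y) := by
      simp only [Finset.sum_mul]
      rw [Finset.sum_comm]
      exact Finset.sum_congr rfl fun a _ => Finset.sum_congr rfl fun b _ => by
        rw [part_comm hΦ b a (fun c => u c x)]; ring
    rw [e3, Finset.sum_add_distrib, e4]
    simp only [hessM, dvec, Matrix.add_apply, Matrix.sum_apply, Matrix.smul_apply,
      smul_eq_mul, of_apply, vecMulVec_apply, mul_sub, Finset.sum_sub_distrib]
    ring
  simp only [hess, grad]
  rw [show chartAt Euc4 x x = y from rfl, hM]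
  simp only [hU', Matrix.mul_add, Matrix.add_mul, Matrix.mul_sum, Matrix.sum_mul,
    Matrix.mul_smul, Matrix.smul_mul, mul_vecMulVec, vecMulVec_mul, mulVec_transpose]

/-- The differential of an inner product of differentials. -/
theorem grad_ip [IsManifold (modelWithCornersSelf ℝ Euc4) ∞ X] {u v : X → ℝ} (hu : Smooth u)
    (hv : Smooth v) (x : X) :
    grad h (fun z => grad h u z ⬝ᵥ grad h v z) x =
      hess h u x *ᵥ grad h v x + hess h v x *ᵥ grad h u x := by
  set y := chartAt Euc4 x x
  have hy : y ∈ (chartAt Euc4 x).target := (chartAt Euc4 x).map_source (mem_chart_source Euc4 x)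
  have hU := (chartAt Euc4 x).open_target
  have hG := isMetricOn h x
  set a := rd x u
  set b := rd x v
  set N := (G x y)⁻¹ with hN
  have hrd : ∀ z ∈ (chartAt Euc4 x).target, rd x (fun w => grad h u w ⬝ᵥ grad h v w) z =
      ∑ i, ∑ j, dvec a z i * ((G x z)⁻¹ i j * dvec b z j) := fun z hz => by
    rw [rd, grad_dot_grad h ((chartAt Euc4 x).map_target hz) hu hv, (chartAt Euc4 x).right_inv hz]
    simp [dotProduct, mulVec, Finset.mul_sum, a, b]
  have hda : ∀ i, DifferentiableAt ℝ (fun z => dvec a z i) y := diff_vec hG hy (smooth_dvec hG (hu x))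
  have hdb : ∀ i, DifferentiableAt ℝ (fun z => dvec b z i) y := diff_vec hG hy (smooth_dvec hG (hv x))
  have hdN := (smooth_inv hG).diff hU hy
  have hd : dvec (rd x fun w => grad h u w ⬝ᵥ grad h v w) y =
      hessM (G x) a y *ᵥ (N *ᵥ dvec b y) + hessM (G x) b y *ᵥ (N *ᵥ dvec a y) := by
    funext q
    show pd (rd x fun w => grad h u w ⬝ᵥ grad h v w) q y = _
    rw [Local.pd_congr hU hy hrd q,
      Local.pd_sum _ fun i _ => DifferentiableAt.fun_sum fun j _ =>
        (hda i).fun_mul ((hdN i j).fun_mul (hdb j))]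
    have e : ∀ i, pd (fun z => ∑ j, dvec a z i * ((G x z)⁻¹ i j * dvec b z j)) q y =
        ∑ j, (pd (fun z => dvec a z i) q y * (N i j * dvec b y j) + dvec a y i *
          (Local.pdm (fun z => (G x z)⁻¹) q y i j * dvec b y j +
            N i j * pd (fun z => dvec b z j) q y)) := fun i => by
      rw [Local.pd_sum _ fun j _ => (hda i).fun_mul ((hdN i j).fun_mul (hdb j))]
      refine Finset.sum_congr rfl fun j _ => ?_
      rw [Local.pd_mul (hda i) ((hdN i j).fun_mul (hdb j)), Local.pd_mul (hdN i j) (hdb j)]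
      rfl
    rw [Finset.sum_congr rfl fun i _ => e i]
    have ea : ∀ f : Euc4 → ℝ, (fun i => pd (fun z => dvec f z i) q y) =
        fun i => hessM (G x) f y q i + ((Local.gamMat (G x) q y).transpose *ᵥ dvec f y) i := by
      intro f
      funext i
      simp [hessM, dvec, mulVec, dotProduct, Local.gamMat]
    have t0 : ∀ (f g : Fin 4 → ℝ) (M : M4), ∑ i, ∑ j, f i * (M i j * g j) = f ⬝ᵥ M *ᵥ g := by
      intro f g M
      simp [dotProduct, mulVec, Finset.mul_sum]
    simp only [Finset.sum_add_distrib, mul_add,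
      t0 (fun i => pd (fun z => dvec a z i) q y) (dvec b y) N,
      t0 (dvec a y) (dvec b y) (Local.pdm (fun z => (G x z)⁻¹) q y),
      t0 (dvec a y) (fun j => pd (fun z => dvec b z j) q y) N]
    simp only [ea, pdm_inv hG hy, ← hN]
    set Γ := Local.gamMat (G x) q y
    have s1 : ∀ f : Euc4 → ℝ, (fun i => hessM (G x) f y q i + (Γ.transpose *ᵥ dvec f y) i) =
        hessM (G x) f y q + Γ.transpose *ᵥ dvec f y := fun f => rfl
    rw [s1, s1, add_dotProduct, mulVec_add, dotProduct_add, neg_mulVec, dotProduct_neg, add_mulVec,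
      dotProduct_add, mulVec_mulVec, mulVec_transpose, ← dotProduct_mulVec, mulVec_mulVec]
    have hsymN : ∀ f g : Fin 4 → ℝ, f ⬝ᵥ N *ᵥ g = g ⬝ᵥ N *ᵥ f := fun f g => by
      rw [dotProduct_mulVec, ← mulVec_transpose, hN, inv_transpose hG, dotProduct_comm]
    rw [hsymN (dvec a y) (hessM (G x) b y q), Pi.add_apply]
    show _ = hessM (G x) a y q ⬝ᵥ N *ᵥ dvec b y + hessM (G x) b y q ⬝ᵥ N *ᵥ dvec a y
    ring
  show (ptFrame h x).transpose *ᵥ dvec (rd x fun w => grad h u w ⬝ᵥ grad h v w) y = _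
  rw [hd]
  simp only [grad, hess]
  rw [show chartAt Euc4 x x = y from rfl, hN, ← ptFrame_inv h x]
  simp only [mulVec_add, mulVec_mulVec, Matrix.mul_assoc]
  rfl

end

end Vale.Agent.P211.Global
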