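import Vale.Agent.P211.Global.Green
import Vale.Agent.P211.Global.Rules
import Vale.Agent.P211.Analytic.Facade

/-!
# P211: the scalar calculus of a closed Einstein four-manifold

Everything in `Analytic.ScalarGeom` except Poincaré's inequality and the passage from weak to
strong, which are arguments.
-/

open Matrix MeasureTheory
open scoped ContDiff Topology

namespace Vale.Agent.P211.Global

noncomputable section

variable {X : Type*} [TopologicalSpace X] [ChartedSpace Euc4 X]
  [IsManifold (modelWithCornersSelf ℝ Euc4) ∞ X] [T2Space X] [CompactSpace X]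
  [MeasurableSpace X] [BorelSpace X]
variable {G : X → Euc4 → M4} (h : IsMetricAtlas G)

/-- Poincaré's inequality in mean, as the facade asks for it. -/
def PoincareProp : Prop :=
  ∃ C : ℝ, ∀ {u : X → ℝ}, Smooth u →
    ∫ x, |u x - (∫ y, u y ∂vol G) / (vol G).real Set.univ| ∂vol G ≤
      C * ∫ x, √(grad h u x ⬝ᵥ grad h u x) ∂vol G

/-- The passage from weak to strong, as the facade asks for it. -/
def WeakToStrongProp : Prop :=
  ∀ (u f : ℕ → X → ℝ) (lo hi : X → ℝ) (e : ℕ → ℝ),
    (∀ m, Smooth (u m)) → (∀ m, Continuous (f m)) → Continuous lo → Continuous hi →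
    (∀ m x, lo x ≤ u m x ∧ u m x ≤ hi x) →
    (∀ ε > 0, ∃ N, ∀ m ≥ N, ∀ n ≥ N,
      (∫ x, (u m x - u n x) ^ 2 ∂vol G) +
        (∫ x, (grad h (u m) x - grad h (u n) x) ⬝ᵥ (grad h (u m) x - grad h (u n) x) ∂vol G) +
        (∫ x, (f m x - f n x) ^ 2 ∂vol G) < ε) →
    Filter.Tendsto e Filter.atTop (nhds 0) →
    (∀ m φ, Smooth φ → |∫ x, (grad h (u m) x ⬝ᵥ grad h φ x + f m x * φ x) ∂vol G| ≤
      e m * √(∫ x, (φ x ^ 2 + grad h φ x ⬝ᵥ grad h φ x) ∂vol G)) →
    ∀ ε > 0, ∃ N, ∀ m ≥ N, ∃ v, Smooth v ∧
      (∫ x, (v x - u m x) ^ 2 ∂vol G) +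
        (∫ x, (grad h v x - grad h (u m) x) ⬝ᵥ (grad h v x - grad h (u m) x) ∂vol G) < ε ∧
      (∫ x, ((hess h v x).trace - f m x) ^ 2 ∂vol G) < ε ∧
      ∀ x, lo x - ε ≤ v x ∧ v x ≤ hi x + ε

include h

omit [T2Space X] [CompactSpace X] [MeasurableSpace X] [BorelSpace X] in
theorem rd_grad_dot {u v : X → ℝ} (hu : Smooth u) (hv : Smooth v) (p : X) {y : Euc4}
    (hy : y ∈ (chartAt Euc4 p).target) :
    rd p (fun x => grad h u x ⬝ᵥ grad h v x) y =
      dvec (rd p u) y ⬝ᵥ (G p y)⁻¹ *ᵥ dvec (rd p v) y := by
  rw [rd, grad_dot_grad h ((chartAt Euc4 p).map_target hy) hu hv, (chartAt Euc4 p).right_inv hy]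

omit [T2Space X] [CompactSpace X] [MeasurableSpace X] [BorelSpace X] in
theorem rd_trace {u : X → ℝ} (hu : Smooth u) (p : X) {y : Euc4}
    (hy : y ∈ (chartAt Euc4 p).target) :
    rd p (fun x => (hess h u x).trace) y = Local.lap (G p) (rd p u) y := by
  rw [rd, trace_hess h ((chartAt Euc4 p).map_target hy) hu, (chartAt Euc4 p).right_inv hy]

omit [T2Space X] [CompactSpace X] [MeasurableSpace X] [BorelSpace X] in
theorem smooth_ip {u v : X → ℝ} (hu : Smooth u) (hv : Smooth v) :
    Smooth fun x => grad h u x ⬝ᵥ grad h v x := by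
  intro p
  refine ContDiffOn.congr ?_ fun y hy => rd_grad_dot h hu hv p hy
  simp only [dotProduct, mulVec]
  exact ContDiffOn.sum fun i _ => (smooth_dvec (isMetricOn h p) (hu p) i).mul
    (ContDiffOn.sum fun j _ =>
      (smooth_inv (isMetricOn h p) i j).mul (smooth_dvec (isMetricOn h p) (hv p) j))

omit [T2Space X] [CompactSpace X] [MeasurableSpace X] [BorelSpace X] in
theorem smooth_trace {u : X → ℝ} (hu : Smooth u) : Smooth fun x => (hess h u x).trace := fun p =>
  (smooth_lap (isMetricOn h p) (hu p)).congr fun _ hy => rd_trace h hu p hy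

omit [T2Space X] [CompactSpace X] [MeasurableSpace X] [BorelSpace X] in
theorem rd_hess_dot {u v : X → ℝ} (hu : Smooth u) (hv : Smooth v) (p : X) {y : Euc4}
    (hy : y ∈ (chartAt Euc4 p).target) :
    rd p (fun x => ∑ i, ∑ j, hess h u x i j * hess h v x i j) y =
      ((G p y)⁻¹ * (hessM (G p) (rd p u) y).transpose * (G p y)⁻¹ *
        hessM (G p) (rd p v) y).trace := by
  rw [rd, hess_dot_hess h ((chartAt Euc4 p).map_target hy) hu hv, (chartAt Euc4 p).right_inv hy]

omit [T2Space X] [CompactSpace X] [MeasurableSpace X] [BorelSpace X] in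
theorem smooth_mdot {u v : X → ℝ} (hu : Smooth u) (hv : Smooth v) :
    Smooth fun x => ∑ i, ∑ j, hess h u x i j * hess h v x i j := by
  intro p
  have hG := isMetricOn h p
  have hM := ((((smooth_inv hG).mul (smooth_hessM hG (hu p)).transpose).mul (smooth_inv hG)).mul
    (smooth_hessM hG (hv p)))
  refine ContDiffOn.congr ?_ fun y hy => rd_hess_dot h hu hv p hy
  simp only [Matrix.trace, Matrix.diag]
  exact ContDiffOn.sum fun i _ => hM i i

omit [T2Space X] [CompactSpace X] [MeasurableSpace X] [BorelSpace X] in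
theorem smooth_grad_hess_grad {f u v : X → ℝ} (hf : Smooth f) (hu : Smooth u) (hv : Smooth v) :
    Smooth fun x => grad h f x ⬝ᵥ hess h u x *ᵥ grad h v x := by
  intro p
  have hG := isMetricOn h p
  have hM := ((smooth_inv hG).mul (smooth_hessM hG (hu p))).mul (smooth_inv hG)
  refine ContDiffOn.congr (f := fun y => dvec (rd p f) y ⬝ᵥ
    ((G p y)⁻¹ * hessM (G p) (rd p u) y * (G p y)⁻¹) *ᵥ dvec (rd p v) y) ?_ fun y hy => by
    rw [rd, grad_dot_hess_grad h ((chartAt Euc4 p).map_target hy) hf hu hv,
      (chartAt Euc4 p).right_inv hy]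
  simp only [dotProduct, mulVec]
  exact ContDiffOn.sum fun i _ => (smooth_dvec hG (hf p) i).mul
    (ContDiffOn.sum fun j _ => (hM i j).mul (smooth_dvec hG (hv p) j))

/-- Green's identity. -/
theorem green {u v : X → ℝ} (hu : Smooth u) (hv : Smooth v) :
    ∫ x, v x * (hess h u x).trace ∂vol G = -∫ x, grad h v x ⬝ᵥ grad h u x ∂vol G := by
  have c1 : Continuous fun x => v x * (hess h u x).trace :=
    (continuous_of_smooth hv).mul (continuous_of_smooth (smooth_trace h hu))
  have c2 := continuous_of_smooth (smooth_ip h hv hu)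
  have := integral_div_eq_zero h (D := fun x => v x * (hess h u x).trace + grad h v x ⬝ᵥ grad h u x)
    (V := fun x => v x • grad h u x) (fun c y => rd c v y • dvec (rd c u) y) (c1.add c2)
    (fun c => by
      simp only [dotProduct_smul, smul_eq_mul]
      exact (continuous_of_smooth hv).mul (continuous_of_smooth (smooth_ip h (smooth_chi c) hu)))
    (fun c k => (hv c).mul (smooth_dvec (isMetricOn h c) (hu c) k))
    (fun c y hy => by
      rw [covDiv_smul (isMetricOn h c) hy (hv c) (smooth_dvec (isMetricOn h c) (hu c)), covDiv_dvec,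
        ← rd_grad_dot h hv hu c hy, ← rd_trace h hu c hy]
      simp only [rd]
      ring)
    (fun c y hy => by
      rw [mulVec_smul, dotProduct_smul, ← rd_grad_dot h (smooth_chi c) hu c hy]
      simp [rd, dotProduct_smul])
  rw [integral_add (integrable_continuous h c1) (integrable_continuous h c2)] at this
  linarith

/-- Bochner's identity, integrated against a function. -/
theorem bochner (hE : IsEinsteinAtlas G) {φ u v : X → ℝ} (hφ : Smooth φ) (hu : Smooth u)
    (hv : Smooth v) :
    ∫ x, φ x * (Analytic.mdot (hess h u x) (hess h v x) -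
        (hess h u x).trace * (hess h v x).trace + 3 * (grad h u x ⬝ᵥ grad h v x)) ∂vol G =
      -∫ x, grad h φ x ⬝ᵥ (hess h u x *ᵥ grad h v x - (hess h u x).trace • grad h v x) ∂vol G := by
  have cL := continuous_of_smooth (smooth_trace h hu)
  have c1 : Continuous fun x => φ x * (Analytic.mdot (hess h u x) (hess h v x) -
      (hess h u x).trace * (hess h v x).trace + 3 * (grad h u x ⬝ᵥ grad h v x)) :=
    (continuous_of_smooth hφ).mul (((continuous_of_smooth (smooth_mdot h hu hv)).sub
      (cL.mul (continuous_of_smooth (smooth_trace h hv)))).add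
        (continuous_const.mul (continuous_of_smooth (smooth_ip h hu hv))))
  have c2 : ∀ {f : X → ℝ}, Smooth f → Continuous fun x =>
      grad h f x ⬝ᵥ (hess h u x *ᵥ grad h v x - (hess h u x).trace • grad h v x) := by
    intro f hf
    simp only [dotProduct_sub, dotProduct_smul, smul_eq_mul]
    exact (continuous_of_smooth (smooth_grad_hess_grad h hf hu hv)).sub
      (cL.mul (continuous_of_smooth (smooth_ip h hf hv)))
  have hread : ∀ c, ∀ y ∈ (chartAt Euc4 c).target, ∀ {f : X → ℝ}, Smooth f →
      rd c (fun x => grad h f x ⬝ᵥ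
        (hess h u x *ᵥ grad h v x - (hess h u x).trace • grad h v x)) y =
      dvec (rd c f) y ⬝ᵥ (G c y)⁻¹ *ᵥ bochnerField (G c) (rd c u) (rd c v) y := by
    intro c y hy f hf
    simp only [rd, dotProduct_sub, dotProduct_smul]
    rw [grad_dot_hess_grad h ((chartAt Euc4 c).map_target hy) hf hu hv,
      grad_dot_grad h ((chartAt Euc4 c).map_target hy) hf hv,
      trace_hess h ((chartAt Euc4 c).map_target hy) hu, (chartAt Euc4 c).right_inv hy, bochnerField,
      mulVec_sub, dotProduct_sub, mulVec_smul, dotProduct_smul, mulVec_mulVec, mulVec_mulVec]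
  have hbs : ∀ c k, ContDiffOn ℝ ∞ (fun y => bochnerField (G c) (rd c u) (rd c v) y k)
      (chartAt Euc4 c).target := by
    intro c k
    have hG := isMetricOn h c
    simp only [bochnerField, Pi.sub_apply, Pi.smul_apply, smul_eq_mul, mulVec, dotProduct]
    exact (ContDiffOn.sum fun i _ => (smooth_hessM hG (hu c) k i).mul
      (ContDiffOn.sum fun j _ => (smooth_inv hG i j).mul (smooth_dvec hG (hv c) j))).sub
      ((smooth_lap hG (hu c)).mul (smooth_dvec hG (hv c) k))
  have := integral_div_eq_zero h (D := fun x => φ x * (Analytic.mdot (hess h u x) (hess h v x) -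
      (hess h u x).trace * (hess h v x).trace + 3 * (grad h u x ⬝ᵥ grad h v x)) +
      grad h φ x ⬝ᵥ (hess h u x *ᵥ grad h v x - (hess h u x).trace • grad h v x))
    (V := fun x => φ x • (hess h u x *ᵥ grad h v x - (hess h u x).trace • grad h v x))
    (fun c y => rd c φ y • bochnerField (G c) (rd c u) (rd c v) y) (c1.add (c2 hφ))
    (fun c => by
      have := (continuous_of_smooth hφ).mul (c2 (smooth_chi c))
      simpa only [dotProduct_smul, smul_eq_mul] using! this)
    (fun c k => (hφ c).mul (hbs c k))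
    (fun c y hy => by
      rw [covDiv_smul (isMetricOn h c) hy (hφ c) (hbs c), ← hread c y hy hφ,
        covDiv_bochnerField (isMetricOn h c) hy (hu c) (hv c) (hE c), ← rd_hess_dot h hu hv c hy,
        ← rd_trace h hu c hy, ← rd_trace h hv c hy, ← rd_grad_dot h hu hv c hy]
      simp only [rd, Analytic.mdot]
      ring)
    (fun c y hy => by
      rw [mulVec_smul, dotProduct_smul, ← hread c y hy (smooth_chi c)]
      simp [rd, dotProduct_smul])
  rw [integral_add (integrable_continuous h c1) (integrable_continuous h (c2 hφ))] at this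
  linarith

omit h in
/-- The scalar calculus of a closed four-manifold with Ricci tensor three times the metric. -/
def scalarGeom (h : IsMetricAtlas G) (hE : IsEinsteinAtlas G) (hP : PoincareProp h)
    (hW : WeakToStrongProp h) : Analytic.ScalarGeom X where
  vol := vol G
  vol_finite := isFiniteMeasure_vol h
  vol_openPos := isOpenPosMeasure_vol h
  Smooth := Smooth
  continuous_of_smooth := continuous_of_smooth
  grad := grad h
  hess := hess h
  hess_symm := fun hu x => hess_symm h hu x
  smooth_comp := fun _ _ hu hΦ => smooth_comp hu hΦ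
  grad_comp := fun _ _ hu hΦ x => grad_comp h hu hΦ x
  hess_comp := fun _ _ hu hΦ x => hess_comp h hu hΦ x
  smooth_ip := fun hu hv => smooth_ip h hu hv
  smooth_trace := fun hu => smooth_trace h hu
  continuous_mdot := fun hu hv => continuous_of_smooth (smooth_mdot h hu hv)
  grad_ip := fun hu hv x => grad_ip h hu hv x
  green := fun hu hv => green h hu hv
  bochner := fun hφ hu hv => bochner h hE hφ hu hv
  poincareL1 := hP
  weakToStrong := hW

end

end Vale.Agent.P211.Global
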