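import Vale.Agent.P211.Global.Cover
import Vale.Agent.P211.Global.Calc

/-!
# P211: Stokes, Green and Bochner on the manifold
-/

open Matrix MeasureTheory
open scoped ContDiff Topology

namespace Vale.Agent.P211.Global

noncomputable section

/-- The integral of a derivative of a function with compact support inside an open set. -/
theorem setIntegral_pd_eq_zero {U K : Set Euc4} {w : Euc4 → ℝ} (hU : IsOpen U) (hK : IsCompact K)
    (hKU : K ⊆ U) (hw : ContDiffOn ℝ ∞ w U) (h0 : ∀ y ∈ U, y ∉ K → w y = 0) (i : Fin 4) :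
    ∫ y in U, pd w i y = 0 := by
  classical
  set W : Euc4 → ℝ := U.indicator w with hW
  have hz : ∀ y, y ∉ K → W y = 0 := fun y hy => by
    by_cases hyU : y ∈ U
    · simp [hW, hyU, h0 y hyU hy]
    · simp [hW, hyU]
  have hWs : ContDiff ℝ ∞ W := contDiff_iff_contDiffAt.2 fun y => by
    by_cases hy : y ∈ U
    · exact (hw.contDiffAt (hU.mem_nhds hy)).congr_of_eventuallyEq
        (Filter.eventuallyEq_of_mem (hU.mem_nhds hy) fun z hz => by simp [hW, hz])
    · exact contDiffAt_const.congr_of_eventuallyEq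
        (Filter.eventuallyEq_of_mem (hK.isClosed.isOpen_compl.mem_nhds fun h => hy (hKU h))
          fun z hz' => hz z hz')
  have hsupp : HasCompactSupport W := HasCompactSupport.intro hK hz
  have hWd : Differentiable ℝ W := hWs.differentiable (by simp)
  have hd0 : ∀ y, y ∉ U → fderiv ℝ W y (EuclideanSpace.single i 1) = 0 := fun y hy => by
    have e : W =ᶠ[𝓝 y] fun _ => (0 : ℝ) :=
      Filter.eventuallyEq_of_mem (hK.isClosed.isOpen_compl.mem_nhds fun h => hy (hKU h)) hz
    simp [e.fderiv_eq]
  have hd1 : ∀ y ∈ U, fderiv ℝ W y (EuclideanSpace.single i 1) = pd w i y := fun y hy =>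
    Local.pd_congr hU hy (fun z hz => by simp [hW, hz]) i
  have hcont : Continuous fun y => fderiv ℝ W y (EuclideanSpace.single i 1) :=
    (hWs.continuous_fderiv (by simp)).clm_apply continuous_const
  have hint : Integrable fun y => fderiv ℝ W y (EuclideanSpace.single i 1) :=
    hcont.integrable_of_hasCompactSupport (hsupp.fderiv_apply ℝ _)
  have h := integral_mul_fderiv_eq_neg_fderiv_mul_of_integrable (μ := (volume : Measure Euc4))
    (f := fun _ => (1 : ℝ)) (g := W) (v := EuclideanSpace.single i 1)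
    (by simp) (by simpa using hint)
    (by simpa using hWs.continuous.integrable_of_hasCompactSupport hsupp)
    (fun y _ => differentiableAt_const _) (fun y _ => hWd y)
  simp at h
  rw [setIntegral_congr_fun hU.measurableSet fun y hy => (hd1 y hy).symm,
    setIntegral_eq_integral_of_forall_compl_eq_zero hd0]
  exact h

variable {X : Type*} [TopologicalSpace X] [ChartedSpace Euc4 X]

theorem continuous_of_smooth {u : X → ℝ} (hu : Smooth u) : Continuous u := by
  refine continuous_iff_continuousAt.2 fun x => ?_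
  have hx := mem_chart_source Euc4 x
  have h1 : ContinuousAt (fun z => rd x u (chartAt Euc4 x z)) x :=
    ((hu x).continuousOn.continuousAt ((chartAt Euc4 x).open_target.mem_nhds
      ((chartAt Euc4 x).map_source hx))).comp ((chartAt Euc4 x).continuousAt hx)
  refine h1.congr (Filter.eventuallyEq_of_mem ((chartAt Euc4 x).open_source.mem_nhds hx)
    fun z hz => ?_)
  simp [rd, (chartAt Euc4 x).left_inv hz]

variable {G : X → Euc4 → M4} (h : IsMetricAtlas G)
  [IsManifold (modelWithCornersSelf ℝ Euc4) ∞ X] [T2Space X] [CompactSpace X]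
include h

omit [IsManifold (modelWithCornersSelf ℝ Euc4) ∞ X] [T2Space X] [CompactSpace X] in
theorem grad_zero_off {u : X → ℝ} {x : X} (hx : x ∉ tsupport u) : grad h u x = 0 := by
  have hxs := mem_chart_source Euc4 x
  set O := (chartAt Euc4 x).target ∩ (chartAt Euc4 x).symm ⁻¹' (tsupport u)ᶜ with hO
  have hOo : IsOpen O :=
    (chartAt Euc4 x).isOpen_inter_preimage_symm (isClosed_tsupport u).isOpen_compl
  have hxO : chartAt Euc4 x x ∈ O :=
    ⟨(chartAt Euc4 x).map_source hxs, by simpa [(chartAt Euc4 x).left_inv hxs] using hx⟩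
  have hz : dvec (rd x u) (chartAt Euc4 x x) = 0 := funext fun i => by
    show pd (rd x u) i (chartAt Euc4 x x) = 0
    rw [Local.pd_congr (f := rd x u) (g := fun _ => (0 : ℝ)) hOo hxO
      (fun y hy => image_eq_zero_of_notMem_tsupport (f := u) hy.2) i, Local.pd_const]
  rw [grad, hz, mulVec_zero]

theorem sum_grad_chi (x : X) : ∑ c ∈ pts X, grad h (chi c) x = 0 := by
  have hy := (chartAt Euc4 x).map_source (mem_chart_source Euc4 x)
  have hz : ∑ c ∈ pts X, dvec (rd x (chi c)) (chartAt Euc4 x x) = 0 := funext fun i => by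
    rw [Finset.sum_apply]
    have := Local.pd_congr (f := fun y => ∑ c ∈ pts X, rd x (chi c) y) (g := fun _ => (1 : ℝ))
      (chartAt Euc4 x).open_target hy (fun y _ => sum_chi _) i
    rw [Local.pd_const, Local.pd_sum _ fun c _ => Local.differentiableAt_of_smooth
      (smooth_chi c x) (chartAt Euc4 x).open_target hy] at this
    exact this
  simp only [grad, ← mulVec_sum, hz, mulVec_zero]

variable [MeasurableSpace X] [BorelSpace X]

/-- A divergence integrates to zero. -/
theorem integral_div_eq_zero {D : X → ℝ} {V : X → Fin 4 → ℝ} (θ : X → Euc4 → Fin 4 → ℝ)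
    (hD : Continuous D)
    (hV : ∀ c, Continuous fun x => grad h (chi c) x ⬝ᵥ V x)
    (hθ : ∀ c k, ContDiffOn ℝ ∞ (fun y => θ c y k) (chartAt Euc4 c).target)
    (hdiv : ∀ c, ∀ y ∈ (chartAt Euc4 c).target, rd c D y = covDiv (G c) (θ c) y)
    (hpair : ∀ c, ∀ y ∈ (chartAt Euc4 c).target,
      rd c (fun x => grad h (chi c) x ⬝ᵥ V x) y = dvec (rd c (chi c)) y ⬝ᵥ (G c y)⁻¹ *ᵥ θ c y) :
    ∫ x, D x ∂vol G = 0 := by
  set F : X → X → ℝ := fun c x => chi c x * D x + grad h (chi c) x ⬝ᵥ V x with hF
  have hFc : ∀ c, Continuous (F c) := fun c => ((chi_continuous c).mul hD).add (hV c)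
  have hFsum : ∀ x, ∑ c ∈ pts X, F c x = D x := fun x => by
    simp only [hF, Finset.sum_add_distrib, ← Finset.sum_mul, sum_chi, one_mul, ← sum_dotProduct,
      sum_grad_chi, zero_dotProduct, add_zero]
  simp only [← hFsum]
  rw [integral_finsetSum _ fun c _ => integrable_continuous h (hFc c)]
  refine Finset.sum_eq_zero fun c _ => ?_
  have hzero : ∀ x, x ∉ tsupport (chi c) → F c x = 0 := fun x hx => by
    simp [hF, image_eq_zero_of_notMem_tsupport hx, grad_zero_off h hx]
  rw [integral_eq_chart h c (hFc c) (isClosed_tsupport _).isCompact (chi_tsupport c) hzero]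
  have hG := isMetricOn h c
  set T := (chartAt Euc4 c).target
  set K := chartAt Euc4 c '' tsupport (chi c)
  have hKT : K ⊆ T := by
    rintro _ ⟨x, hx, rfl⟩
    exact (chartAt Euc4 c).map_source (chi_tsupport c hx)
  have hchi0 : ∀ y ∈ T, y ∉ K → rd c (chi c) y = 0 := fun y hy hyK => by
    show chi c ((chartAt Euc4 c).symm y) = 0
    exact image_eq_zero_of_notMem_tsupport fun hm => hyK ⟨_, hm, (chartAt Euc4 c).right_inv hy⟩
  set η : Euc4 → Fin 4 → ℝ := fun y => rd c (chi c) y • θ c y with hη
  have hηs : ∀ k, ContDiffOn ℝ ∞ (fun y => η y k) T := fun k => (smooth_chi c c).mul (hθ c k)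
  set w : Fin 4 → Euc4 → ℝ := fun i y => dens G c y * ((G c y)⁻¹ *ᵥ η y) i with hw
  have hws : ∀ i, ContDiffOn ℝ ∞ (w i) T := fun i => (smooth_dens h c).mul (by
    simp only [mulVec, dotProduct]
    exact ContDiffOn.sum fun k _ => (smooth_inv hG i k).mul (hηs k))
  have hw0 : ∀ i, ∀ y ∈ T, y ∉ K → w i y = 0 := fun i y hy hyK => by
    simp [hw, hη, hchi0 y hy hyK]
  have e : ∀ y ∈ T, dens G c y * rd c (F c) y = ∑ i, pd (w i) i y := by
    intro y hy
    simp only [hw, dens]
    rw [sum_pd_dens hG hy hηs, hη, covDiv_smul hG hy (smooth_chi c c) (hθ c), ← hdiv c y hy,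
      ← hpair c y hy]
    simp only [rd, hF]
    ring
  rw [setIntegral_congr_fun (chartAt Euc4 c).open_target.measurableSet e,
    integral_finsetSum _ fun i _ => ?_]
  · exact Finset.sum_eq_zero fun i _ =>
      setIntegral_pd_eq_zero (chartAt Euc4 c).open_target
        ((isClosed_tsupport _).isCompact.image_of_continuousOn
          ((chartAt Euc4 c).continuousOn.mono (chi_tsupport c))) hKT (hws i) (hw0 i) i
  · have hKc : IsCompact K := (isClosed_tsupport _).isCompact.image_of_continuousOn
      ((chartAt Euc4 c).continuousOn.mono (chi_tsupport c))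
    refine integrableOn_target (Local.pd_smooth (hws i) (chartAt Euc4 c).open_target i).continuousOn
      hKc hKT fun y hy hyK => ?_
    rw [Local.pd_congr (g := fun _ => (0 : ℝ))
      ((chartAt Euc4 c).open_target.inter hKc.isClosed.isOpen_compl) (x := y) ⟨hy, hyK⟩
      (fun z hz => hw0 i z hz.1 hz.2) i, Local.pd_const]

end

end Vale.Agent.P211.Global
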