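import Vale.Agent.P211.Global.Cover
import Vale.Agent.P211.Analytic.Poincare.Ball
import Vale.Agent.P211.Analytic.Poincare.Chain

/-!
# P211, module C: Poincaré's inequality in mean on the manifold
-/

open Matrix MeasureTheory Metric Set
open scoped ContDiff Topology ENNReal

namespace Vale.Agent.P211.Global

noncomputable section

variable {X : Type*} [TopologicalSpace X] [ChartedSpace Euc4 X]

/-- The length of the differential. -/
def gradNorm {G : X → Euc4 → M4} (h : IsMetricAtlas G) (u : X → ℝ) (x : X) : ℝ :=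
  √(grad h u x ⬝ᵥ grad h u x)

theorem continuous_of_smooth' {u : X → ℝ} (hu : Smooth u) : Continuous u := by
  refine continuous_iff_continuousAt.2 fun x => ?_
  have hx := mem_chart_source Euc4 x
  refine (((hu x).continuousOn.continuousAt ((chartAt Euc4 x).open_target.mem_nhds
    ((chartAt Euc4 x).map_source hx))).comp ((chartAt Euc4 x).continuousAt hx)).congr ?_
  filter_upwards [(chartAt Euc4 x).open_source.mem_nhds hx] with y hy
  simp [rd, (chartAt Euc4 x).left_inv hy]

variable {G : X → Euc4 → M4} (h : IsMetricAtlas G)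
include h

variable [IsManifold (modelWithCornersSelf ℝ Euc4) ∞ X] {u : X → ℝ}

theorem continuous_gradNorm (hu : Smooth u) : Continuous (gradNorm h u) := by
  refine continuous_iff_continuousAt.2 fun x => ?_
  have hx := mem_chart_source Euc4 x
  set T := (chartAt Euc4 x).target
  have hyT : chartAt Euc4 x x ∈ T := (chartAt Euc4 x).map_source hx
  have hd : ContinuousOn (dvec (rd x u)) T := continuousOn_pi.2 fun i =>
    (Local.pd_smooth (hu x) (chartAt Euc4 x).open_target i).continuousOn
  have hG : ContinuousOn (G x) T :=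
    continuousOn_pi.2 fun i => continuousOn_pi.2 fun j => (h.smooth x i j).continuousOn
  have hinv : ContinuousAt (fun y => (G x y)⁻¹) (chartAt Euc4 x x) := by
    refine ContinuousAt.comp (g := Inv.inv) ?_
      (hG.continuousAt ((chartAt Euc4 x).open_target.mem_nhds hyT))
    refine continuousAt_matrix_inv _ ?_
    rw [Ring.inverse_eq_inv']
    exact continuousAt_inv₀ (h.posDef x _ hyT).det_pos.ne'
  have hda := hd.continuousAt ((chartAt Euc4 x).open_target.mem_nhds hyT)
  have hF : ContinuousAt (fun y => √(dvec (rd x u) y ⬝ᵥ (G x y)⁻¹ *ᵥ dvec (rd x u) y))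
      (chartAt Euc4 x x) := by
    refine ContinuousAt.sqrt ?_
    exact (continuous_fst.dotProduct continuous_snd).continuousAt.comp
      (hda.prodMk ((continuous_fst.matrix_mulVec continuous_snd).continuousAt.comp
        (hinv.prodMk hda)))
  refine (hF.comp ((chartAt Euc4 x).continuousAt hx)).congr ?_
  filter_upwards [(chartAt Euc4 x).open_source.mem_nhds hx] with y hy
  simp only [Function.comp_apply, gradNorm, grad_dot_grad h hy hu hu]

theorem norm_fderiv_le {p : X} {y : Euc4} (hu : Smooth u) (hy : y ∈ (chartAt Euc4 p).target) :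
    ‖fderiv ℝ (rd p u) y‖ ≤ √(G p y).trace * gradNorm h u ((chartAt Euc4 p).symm y) := by
  set x := (chartAt Euc4 p).symm y with hxdef
  have hxp : x ∈ (chartAt Euc4 p).source := (chartAt Euc4 p).map_target hy
  have hex : chartAt Euc4 p x = y := (chartAt Euc4 p).right_inv hy
  set M := pushFrame h p x with hM
  set a := grad h u x with ha
  have ha' : a = M.transpose *ᵥ dvec (rd p u) y := by rw [ha, grad_eq h hxp hu, hex]
  have hMM : M * M.transpose = (G p y)⁻¹ := by rw [hM, pushFrame_inv h hxp, hex]
  have hGdet : IsUnit (G p y).det := (h.posDef p y hy).det_pos.ne'.isUnit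
  have hGs : (G p y).transpose = G p y := (isMetricOn h p).transpose_eq y
  set N := G p y * M with hN
  have hd : dvec (rd p u) y = N *ᵥ a := by
    rw [ha', mulVec_mulVec, hN, Matrix.mul_assoc, hMM, mul_nonsing_inv _ hGdet, one_mulVec]
  have htr : ∑ i, ∑ k, N i k ^ 2 = (G p y).trace := by
    have e : N * N.transpose = G p y := by
      rw [hN, transpose_mul, hGs, Matrix.mul_assoc, ← Matrix.mul_assoc M, hMM,
        nonsing_inv_mul _ hGdet, Matrix.mul_one]
    rw [← e]
    simp [Matrix.trace, Matrix.mul_apply, sq]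
  have hsum : ∑ i, pd (rd p u) i y ^ 2 ≤ (G p y).trace * (a ⬝ᵥ a) := by
    rw [← htr, Finset.sum_mul]
    refine Finset.sum_le_sum fun i _ => ?_
    rw [show pd (rd p u) i y = (N *ᵥ a) i from congrFun hd i]
    refine (Finset.sum_mul_sq_le_sq_mul_sq Finset.univ (N i) a).trans (le_of_eq ?_)
    simp [dotProduct, sq]
  refine ContinuousLinearMap.opNorm_le_bound _
    (mul_nonneg (Real.sqrt_nonneg _) (Real.sqrt_nonneg _)) fun z => ?_
  rw [fderiv_eq_sum, Real.norm_eq_abs, gradNorm, ← ha,
    ← Real.sqrt_mul (h.posDef p y hy).posSemidef.trace_nonneg,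
    EuclideanSpace.norm_eq, ← Real.sqrt_mul' _ (Finset.sum_nonneg fun i _ => by positivity)]
  refine Real.abs_le_sqrt ?_
  refine (Finset.sum_mul_sq_le_sq_mul_sq Finset.univ (fun i => z i)
    (fun i => pd (rd p u) i y)).trans ?_
  simp only [Real.norm_eq_abs, sq_abs]
  rw [mul_comm]
  exact mul_le_mul_of_nonneg_right hsum (Finset.sum_nonneg fun i _ => sq_nonneg _)

variable [T2Space X] [CompactSpace X] [MeasurableSpace X] [BorelSpace X]

theorem osc_chart (p₀ : X) : ∃ A, IsOpen A ∧ p₀ ∈ A ∧
    Poincare.Osc (vol G) Smooth (fun u => ∫⁻ x, ENNReal.ofReal (gradNorm h u x) ∂vol G) A := by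
  have := isFiniteMeasure_vol h
  set e := chartAt Euc4 p₀ with he
  set T := e.target with hT
  have hsrc : p₀ ∈ e.source := mem_chart_source Euc4 p₀
  obtain ⟨R, hR, hRT⟩ := Metric.mem_nhds_iff.1 (e.open_target.mem_nhds (e.map_source hsrc))
  set c := e p₀ with hc
  set r := R / 5 with hr
  have hr0 : 0 < r := by positivity
  have hsubT : ∀ s, s ≤ 4 * r → closedBall c s ⊆ T := fun s hs =>
    (closedBall_subset_ball (by linarith)).trans hRT
  have himgc : ∀ s, s ≤ 4 * r → IsCompact (e.symm '' closedBall c s) := fun s hs =>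
    (isCompact_closedBall c s).image_of_continuousOn (e.continuousOn_symm.mono (hsubT s hs))
  have himgo : ∀ s, s ≤ 4 * r → IsOpen (e.symm '' ball c s) := fun s hs =>
    e.isOpen_image_symm_of_subset_target isOpen_ball (ball_subset_closedBall.trans (hsubT s hs))
  have hbump : ∀ s t, s < t → t ≤ 4 * r → ∃ f : C(X, ℝ), EqOn f 1 (e.symm '' closedBall c s) ∧
      (∀ x, x ∉ e.symm '' ball c t → f x = 0) ∧ ∀ x, f x ∈ Icc (0 : ℝ) 1 := by
    intro s t hst ht
    obtain ⟨f, h1, h0, -, h01⟩ := exists_continuous_one_zero_of_isCompact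
      (himgc s (hst.le.trans ht)) (himgo t ht).isClosed_compl
      (disjoint_compl_right_iff_subset.2 (image_mono (closedBall_subset_ball hst)))
    exact ⟨f, h1, fun x hx => h0 hx, h01⟩
  obtain ⟨χ, hχ1, hχ0, hχ01⟩ := hbump r (2 * r) (by linarith) (by linarith)
  obtain ⟨ψ, hψ1, hψ0, hψ01⟩ := hbump (3 * r) (4 * r) (by linarith) le_rfl
  obtain ⟨η, hη1, hη0, hηs, hη01⟩ := exists_continuous_one_zero_of_isCompact
    (isCompact_closedBall c (2 * r)) isOpen_ball.isClosed_compl
    (disjoint_compl_right_iff_subset.2 (closedBall_subset_ball (show 2 * r < 3 * r by linarith)))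
  set D := closedBall c (2 * r) with hD
  set D3 := closedBall c (3 * r) with hD3
  have hDT : D ⊆ T := hsubT _ (by linarith)
  have hD3T : D3 ⊆ T := hsubT _ (by linarith)
  obtain ⟨M, hM⟩ := (isCompact_closedBall c (2 * r)).exists_bound_of_continuousOn
    ((smooth_dens h p₀).continuousOn.mono hDT)
  have hM0 : 0 ≤ M := (norm_nonneg _).trans (hM c (mem_closedBall_self (by positivity)))
  obtain ⟨L, hL⟩ := (isCompact_closedBall c (3 * r)).exists_bound_of_continuousOn
    (f := fun y => √(G p₀ y).trace / dens G p₀ y)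
    ((((continuous_id.matrix_trace).comp_continuousOn
      ((continuousOn_pi.2 fun i => continuousOn_pi.2 fun j =>
        (h.smooth p₀ i j).continuousOn).mono hD3T)).sqrt).div
      ((smooth_dens h p₀).continuousOn.mono hD3T) fun y hy => (dens_pos h (hD3T hy)).ne')
  have hL0 : 0 ≤ L := (norm_nonneg _).trans (hL c (mem_closedBall_self (by positivity)))
  set K := ENNReal.ofReal M * ENNReal.ofReal M *
    (ENNReal.ofReal (2 * (2 * r)) * (32 * volume D)) * ENNReal.ofReal L with hK
  have hKt : K ≠ ⊤ := ENNReal.mul_ne_top (ENNReal.mul_ne_top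
    (ENNReal.mul_ne_top ENNReal.ofReal_ne_top ENNReal.ofReal_ne_top)
    (ENNReal.mul_ne_top ENNReal.ofReal_ne_top
      (ENNReal.mul_ne_top (by norm_num) measure_closedBall_lt_top.ne))) ENNReal.ofReal_ne_top
  refine ⟨e.symm '' ball c r, himgo r (by linarith),
    ⟨c, mem_ball_self hr0, e.left_inv hsrc⟩, K, hKt, fun u hu => ?_⟩
  have huc : Continuous u := continuous_of_smooth' hu
  set U := rd p₀ u with hU
  set w : Euc4 → ℝ := fun y => dens G p₀ y * χ (e.symm y) with hw
  have hwD : ∀ y ∈ D, 0 ≤ w y ∧ w y ≤ M := fun y hy =>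
    ⟨mul_nonneg (dens_pos h (hDT hy)).le (hχ01 _).1,
      (mul_le_of_le_one_right (dens_pos h (hDT hy)).le (hχ01 _).2).trans
        ((le_abs_self _).trans (hM y hy))⟩
  have hχK : ∀ x, x ∉ e.symm '' closedBall c (2 * r) → χ x = 0 := fun x hx =>
    hχ0 x fun hx' => hx (image_mono ball_subset_closedBall hx')
  have hKs : e.symm '' closedBall c (2 * r) ⊆ e.source := by
    rintro _ ⟨y, hy, rfl⟩
    exact e.map_target (hDT hy)
  have hchart : ∀ {F : X → ℝ}, Continuous F →
      ∫ x, χ x * F x ∂vol G = ∫ y in D, w y * F (e.symm y) := by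
    intro F hF
    rw [integral_eq_chart h p₀ (f := fun x => χ x * F x) (χ.continuous.mul hF) (himgc _ (by linarith)) hKs
      fun x hx => by rw [hχK x hx, zero_mul],
      setIntegral_eq_of_subset_of_forall_sdiff_eq_zero e.open_target.measurableSet hDT ?_]
    · exact setIntegral_congr_fun measurableSet_closedBall fun y _ => by
        simp [hw, rd, ← he]; ring
    · intro y hy
      have : χ (e.symm y) = 0 := hχK _ fun ⟨z, hz, hzy⟩ => hy.2 (by
        rwa [← e.symm.injOn (hDT hz) hy.1 hzy])
      simp [rd, ← he, this]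
  -- the inner integral
  set Φ : X → ℝ := fun x => ∫ y, χ y * |u x - u y| ∂vol G with hΦ
  have hint : ∀ {f : X → ℝ}, Continuous f → Integrable f (vol G) := fun hf =>
    integrable_continuous h hf
  have hΦc : Continuous Φ := by
    have hL : LipschitzWith (⟨(vol G).real univ, measureReal_nonneg⟩ : NNReal)
        fun s : ℝ => ∫ y, χ y * |s - u y| ∂vol G := by
      have hsi : ∀ s : ℝ, Integrable (fun y => χ y * |s - u y|) (vol G) := fun s =>
        hint (χ.continuous.mul (continuous_const.sub huc).abs)
      refine LipschitzWith.of_dist_le_mul fun s t => ?_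
      rw [Real.dist_eq, Real.dist_eq, ← integral_sub (hsi s) (hsi t)]
      refine abs_integral_le_integral_abs.trans ?_
      calc ∫ y, abs (χ y * |s - u y| - χ y * |t - u y|) ∂vol G ≤ ∫ _y, |s - t| ∂vol G :=
            integral_mono (hint ((χ.continuous.mul (continuous_const.sub huc).abs).sub
              (χ.continuous.mul (continuous_const.sub huc).abs)).abs) (integrable_const _)
              fun y => by
                rw [← mul_sub, abs_mul, abs_of_nonneg (hχ01 y).1]
                refine (mul_le_of_le_one_left (abs_nonneg _) (hχ01 y).2).trans ?_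
                simpa using abs_abs_sub_abs_le_abs_sub (s - u y) (t - u y)
        _ = (vol G).real univ * |s - t| := by rw [integral_const, smul_eq_mul]
    exact hL.continuous.comp huc
  have hΦ0 : ∀ x, 0 ≤ Φ x := fun x => integral_nonneg fun y => mul_nonneg (hχ01 y).1 (abs_nonneg _)
  have hA : MeasurableSet (e.symm '' ball c r) := (himgo r (by linarith)).measurableSet
  have hdom : ∀ {F : X → ℝ}, Continuous F → (∀ x, 0 ≤ F x) →
      ∫⁻ x in e.symm '' ball c r, ENNReal.ofReal (F x) ∂vol G
        ≤ ENNReal.ofReal (∫ x, χ x * F x ∂vol G) := by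
    intro F hF hF0
    rw [ofReal_integral_eq_lintegral_ofReal (hint (f := fun x => χ x * F x) (χ.continuous.mul hF))
      (Filter.Eventually.of_forall fun x => mul_nonneg (hχ01 x).1 (hF0 x))]
    refine (setLIntegral_mono' hA fun x hx => ?_).trans (setLIntegral_le_lintegral _ _)
    rw [hχ1 (image_mono ball_subset_closedBall hx)]
    simp
  have hUc : ContinuousOn U D := (hu p₀).continuousOn.mono hDT
  have hwc : ContinuousOn w D := ((smooth_dens h p₀).continuousOn.mul
    (χ.continuous.comp_continuousOn e.continuousOn_symm)).mono hDT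
  have hΦD : ∀ y ∈ D, ENNReal.ofReal (Φ (e.symm y)) ≤
      ENNReal.ofReal M * ∫⁻ z in D, ENNReal.ofReal |U y - U z| := by
    intro y hy
    simp only [hΦ]
    rw [hchart (F := fun z => |u (e.symm y) - u z|) (continuous_const.sub huc).abs, ofReal_integral_eq_lintegral_ofReal
      (show IntegrableOn (fun z => w z * |u (e.symm y) - u (e.symm z)|) D volume from
        (hwc.mul (continuousOn_const.sub hUc).abs).integrableOn_compact (isCompact_closedBall _ _))
      ((ae_restrict_iff' measurableSet_closedBall).2 (Filter.Eventually.of_forall fun z hz =>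
        mul_nonneg (hwD z hz).1 (abs_nonneg _))),
      ← lintegral_const_mul' _ _ ENNReal.ofReal_ne_top]
    refine setLIntegral_mono' measurableSet_closedBall fun z hz => ?_
    rw [← ENNReal.ofReal_mul hM0]
    exact ENNReal.ofReal_le_ofReal (mul_le_mul_of_nonneg_right (hwD z hz).2 (abs_nonneg _))
  have hΦe : ContinuousOn (fun y => Φ (e.symm y)) D :=
    (hΦc.comp_continuousOn e.continuousOn_symm).mono hDT
  -- the dominating function
  set g : Euc4 → ℝ := fun y => η y * ‖fderiv ℝ U y‖ with hg
  have hηT : tsupport η ⊆ D3 := closure_minimal (fun y hy => by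
    by_contra hyD
    exact hy (hη0 fun hyb => hyD (ball_subset_closedBall hyb))) isClosed_closedBall
  have hgc : Continuous g := by
    refine continuous_iff_continuousAt.2 fun y => ?_
    by_cases hy : y ∈ T
    · exact η.continuous.continuousAt.mul
        (((hu p₀).continuousOn_fderiv_of_isOpen e.open_target (by simp)).continuousAt
          (e.open_target.mem_nhds hy)).norm
    · refine continuousAt_const.congr (f := fun _ => (0 : ℝ)) ?_
      filter_upwards [notMem_tsupport_iff_eventuallyEq.1 fun hyt => hy (hD3T (hηT hyt))] with z hz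
      simp only [hg, hz, Pi.zero_apply, zero_mul]
  have hg0 : ∀ y, 0 ≤ g y := fun y => mul_nonneg (hη01 y).1 (norm_nonneg _)
  have hball := Poincare.lintegral_abs_sub_le (u := U) e.open_target
    ((hu p₀).of_le (by simp)) (c := c) (r := 2 * r) hDT hgc hg0 fun y hy => by
      simp [hg, hη1 hy]
  have hgle : ∫⁻ y, ENNReal.ofReal (g y) ≤
      ENNReal.ofReal L * ∫⁻ x, ENNReal.ofReal (gradNorm h u x) ∂vol G := by
    have hgn := continuous_gradNorm h hu
    have hgn0 : ∀ x, 0 ≤ gradNorm h u x := fun x => Real.sqrt_nonneg _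
    have hψK : ∀ x, x ∉ e.symm '' closedBall c (4 * r) → ψ x = 0 := fun x hx =>
      hψ0 x fun hx' => hx (image_mono ball_subset_closedBall hx')
    have hKs4 : e.symm '' closedBall c (4 * r) ⊆ e.source := by
      rintro _ ⟨y, hy, rfl⟩
      exact e.map_target (hsubT _ le_rfl hy)
    have hchart4 : ∫ x, ψ x * gradNorm h u x ∂vol G =
        ∫ y in T, dens G p₀ y * (ψ (e.symm y) * gradNorm h u (e.symm y)) :=
      integral_eq_chart h p₀ (ψ.continuous.mul hgn) (himgc _ le_rfl) hKs4
        fun x hx => by rw [hψK x hx, zero_mul]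
    set k : Euc4 → ℝ := fun y => dens G p₀ y * (ψ (e.symm y) * gradNorm h u (e.symm y)) with hk
    have hkc : ContinuousOn k T := (smooth_dens h p₀).continuousOn.mul
      (((ψ.continuous.comp_continuousOn e.continuousOn_symm)).mul
        (hgn.comp_continuousOn e.continuousOn_symm))
    have hk0 : ∀ y ∈ T, 0 ≤ k y := fun y hy =>
      mul_nonneg (dens_pos h hy).le (mul_nonneg (hψ01 _).1 (hgn0 _))
    have hki : IntegrableOn k T := integrableOn_target (p := p₀) hkc
      (isCompact_closedBall c (4 * r)) (hsubT _ le_rfl) fun y hy hyK => by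
        have : ψ (e.symm y) = 0 := hψK _ fun ⟨z, hz, hzy⟩ => hyK (by
          rwa [← e.symm.injOn (hsubT _ le_rfl hz) hy hzy])
        simp [hk, this]
    calc ∫⁻ y, ENNReal.ofReal (g y) ≤ ∫⁻ y in T, ENNReal.ofReal L * ENNReal.ofReal (k y) := by
          rw [← lintegral_indicator e.open_target.measurableSet]
          refine lintegral_mono fun y => ?_
          by_cases hy : y ∈ D3
          · rw [Set.indicator_of_mem (hD3T hy), ← ENNReal.ofReal_mul hL0]
            refine ENNReal.ofReal_le_ofReal ?_
            have hd := dens_pos h (hD3T hy)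
            have h2 : √(G p₀ y).trace ≤ L * dens G p₀ y := by
              have := (le_abs_self _).trans (hL y hy)
              rwa [div_le_iff₀ hd] at this
            calc g y ≤ ‖fderiv ℝ U y‖ := mul_le_of_le_one_left (norm_nonneg _) (hη01 y).2
              _ ≤ √(G p₀ y).trace * gradNorm h u (e.symm y) := norm_fderiv_le h hu (hD3T hy)
              _ ≤ L * dens G p₀ y * gradNorm h u (e.symm y) :=
                  mul_le_mul_of_nonneg_right h2 (hgn0 _)
              _ = L * k y := by
                  simp only [hk]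
                  rw [hψ1 (mem_image_of_mem _ hy)]
                  simp [mul_assoc]
          · have : η y = 0 := image_eq_zero_of_notMem_tsupport fun hyt => hy (hηT hyt)
            simp [hg, this]
      _ = ENNReal.ofReal L * ENNReal.ofReal (∫ x, ψ x * gradNorm h u x ∂vol G) := by
          rw [hchart4, lintegral_const_mul' _ _ ENNReal.ofReal_ne_top,
            ofReal_integral_eq_lintegral_ofReal hki
              ((ae_restrict_iff' e.open_target.measurableSet).2 (Filter.Eventually.of_forall hk0))]
      _ ≤ ENNReal.ofReal L * ∫⁻ x, ENNReal.ofReal (gradNorm h u x) ∂vol G := by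
          rw [ofReal_integral_eq_lintegral_ofReal (hint (f := fun x => ψ x * gradNorm h u x) (ψ.continuous.mul hgn))
            (Filter.Eventually.of_forall fun x => mul_nonneg (hψ01 x).1 (hgn0 x))]
          gcongr with x
          exact mul_le_of_le_one_left (hgn0 x) (hψ01 x).2
  calc ∫⁻ x in e.symm '' ball c r, ∫⁻ y in e.symm '' ball c r,
        ENNReal.ofReal |u x - u y| ∂vol G ∂vol G
      ≤ ∫⁻ x in e.symm '' ball c r, ENNReal.ofReal (Φ x) ∂vol G :=
        lintegral_mono fun x => hdom (continuous_const.sub huc).abs fun y => abs_nonneg _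
    _ ≤ ENNReal.ofReal (∫ x, χ x * Φ x ∂vol G) := hdom hΦc hΦ0
    _ ≤ ∫⁻ y in D, ENNReal.ofReal M * (ENNReal.ofReal M *
          ∫⁻ z in D, ENNReal.ofReal |U y - U z|) := by
        rw [hchart hΦc, ofReal_integral_eq_lintegral_ofReal
          (show IntegrableOn (fun y => w y * Φ (e.symm y)) D volume from
            (hwc.mul hΦe).integrableOn_compact (isCompact_closedBall _ _))
          ((ae_restrict_iff' measurableSet_closedBall).2 (Filter.Eventually.of_forall fun y hy =>
            mul_nonneg (hwD y hy).1 (hΦ0 _)))]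
        refine setLIntegral_mono' measurableSet_closedBall fun y hy => ?_
        refine le_trans ?_ (mul_le_mul_right (hΦD y hy) _)
        rw [← ENNReal.ofReal_mul hM0]
        exact ENNReal.ofReal_le_ofReal (mul_le_mul_of_nonneg_right (hwD y hy).2 (hΦ0 _))
    _ = ENNReal.ofReal M * ENNReal.ofReal M *
          ∫⁻ y in D, ∫⁻ z in D, ENNReal.ofReal |U y - U z| := by
        rw [lintegral_const_mul' _ _ ENNReal.ofReal_ne_top,
          lintegral_const_mul' _ _ ENNReal.ofReal_ne_top, mul_assoc]
    _ ≤ ENNReal.ofReal M * ENNReal.ofReal M *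
          (ENNReal.ofReal (2 * (2 * r)) * (32 * volume D) *
            (ENNReal.ofReal L * ∫⁻ x, ENNReal.ofReal (gradNorm h u x) ∂vol G)) := by
        gcongr
        exact hball.trans (mul_le_mul_right hgle _)
    _ = K * ∫⁻ x, ENNReal.ofReal (gradNorm h u x) ∂vol G := by
        rw [hK]; ring

/-- Poincaré's inequality in mean, in the shape of the facade's field. -/
theorem poincare [PreconnectedSpace X] : ∃ C : ℝ, ∀ {u}, Smooth u →
    ∫ x, |u x - (∫ y, u y ∂vol G) / (vol G).real Set.univ| ∂vol G ≤
      C * ∫ x, √(grad h u x ⬝ᵥ grad h u x) ∂vol G := by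
  have := isFiniteMeasure_vol h
  have := isOpenPosMeasure_vol h
  exact Poincare.mean_of_osc (g := gradNorm h) (fun u hu => continuous_of_smooth' hu)
    (fun u hu => continuous_gradNorm h hu) (fun u x => Real.sqrt_nonneg _)
    (Poincare.osc_univ (fun u hu => (continuous_of_smooth' hu).measurable) (osc_chart h))

end

end Vale.Agent.P211.Global
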