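import Vale.Agent.P211.Global.Geom
import Vale.Agent.P211.Global.Poincare

/-!
# P211, module C: the facade's Poincaré field holds
-/

open MeasureTheory
open scoped ContDiff

namespace Vale.Agent.P211.Global

noncomputable section

variable {X : Type*} [TopologicalSpace X] [ChartedSpace Euc4 X]
  [IsManifold (modelWithCornersSelf ℝ Euc4) ∞ X] [T2Space X] [CompactSpace X]
  [MeasurableSpace X] [BorelSpace X] [PreconnectedSpace X]

theorem poincareProp {G : X → Euc4 → M4} (h : IsMetricAtlas G) : PoincareProp h :=
  poincare h

end

end Vale.Agent.P211.Global
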