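import Vale.Agent.P211.Global.Change
import Vale.Agent.P211.Local.Weitz.Scalar

/-!
# P211: gradient and Hessian at a point, and how they read in every chart
-/

open Matrix
open scoped ContDiff Topology

namespace Vale.Agent.P211.Global

open Local (IsMetricOn)

noncomputable section

variable {X : Type*} [TopologicalSpace X] [ChartedSpace Euc4 X]

/-- A function read in the chart at `p`. -/
def rd (p : X) (u : X → ℝ) : Euc4 → ℝ := fun y => u ((chartAt Euc4 p).symm y)

/-- A function is smooth in every chart. -/
def Smooth (u : X → ℝ) : Prop :=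
  ∀ p : X, ContDiffOn ℝ ∞ (rd p u) (chartAt Euc4 p).target

theorem rd_change (q p : X) (u : X → ℝ) :
    ∀ y ∈ (tr q p).source, rd q u y = rd p u (tr q p y) := fun y hy => by
  rw [rd, rd, symm_tr hy]

variable {G : X → Euc4 → M4} (h : IsMetricAtlas G)

/-- A smooth orthonormal frame in the chart at `p`. -/
def frameAt (p : X) : Euc4 → M4 := Classical.choose (Local.exists_frame (isMetricOn h p))

theorem isFrameOn_frameAt (p : X) :
    Local.IsFrameOn (G p) (frameAt h p) (chartAt Euc4 p).target :=
  Classical.choose_spec (Local.exists_frame (isMetricOn h p))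

/-- The frame at a point. -/
def ptFrame (x : X) : M4 := frameAt h x (chartAt Euc4 x x)

/-- The components of the differential. -/
def grad (u : X → ℝ) (x : X) : Fin 4 → ℝ :=
  (ptFrame h x).transpose *ᵥ dvec (rd x u) (chartAt Euc4 x x)

/-- The components of the Hessian. -/
def hess (u : X → ℝ) (x : X) : M4 :=
  (ptFrame h x).transpose * hessM (G x) (rd x u) (chartAt Euc4 x x) * ptFrame h x

include h

theorem ptFrame_spec (x : X) : IsPosFrame (G x (chartAt Euc4 x x)) (ptFrame h x) :=
  (isFrameOn_frameAt h x).frame _ ((chartAt Euc4 x).map_source (mem_chart_source Euc4 x))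

variable [IsManifold (modelWithCornersSelf ℝ Euc4) ∞ X] {p x : X}

/-- The frame at a point pushed to the chart at `p`. -/
def pushFrame (p x : X) : M4 := jac (tr x p) (chartAt Euc4 x x) * ptFrame h x

variable (hp : x ∈ (chartAt Euc4 p).source)
include hp

omit [IsManifold (modelWithCornersSelf ℝ Euc4) ∞ X] in
theorem pushFrame_spec :
    (pushFrame h p x).transpose * G p (chartAt Euc4 p x) * pushFrame h p x = 1 := by
  obtain ⟨hy, he⟩ := chart_mem_source (mem_chart_source Euc4 x) hp
  rw [← (ptFrame_spec h x).1, h.compat x p _ hy, he]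
  simp only [pushFrame, transpose_mul, Matrix.mul_assoc]

omit [IsManifold (modelWithCornersSelf ℝ Euc4) ∞ X] in
theorem pushFrame_inv :
    pushFrame h p x * (pushFrame h p x).transpose = (G p (chartAt Euc4 p x))⁻¹ := by
  refine (Matrix.inv_eq_left_inv ?_).symm
  rw [Matrix.mul_assoc]
  exact mul_eq_one_comm.1 (pushFrame_spec h hp)

theorem grad_eq {u : X → ℝ} (hu : Smooth u) :
    grad h u x = (pushFrame h p x).transpose *ᵥ dvec (rd p u) (chartAt Euc4 p x) := by
  obtain ⟨hy, he⟩ := chart_mem_source (mem_chart_source Euc4 x) hp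
  have e : dvec (rd x u) (chartAt Euc4 x x) =
      dvec (fun z => rd p u (tr x p z)) (chartAt Euc4 x x) :=
    funext fun i => Local.pd_congr (tr x p).open_source hy (rd_change x p u) i
  rw [grad, e, dvec_change (hu p) hy, he, mulVec_mulVec, pushFrame, transpose_mul]

theorem hess_eq {u : X → ℝ} (hu : Smooth u) :
    hess h u x = (pushFrame h p x).transpose * hessM (G p) (rd p u) (chartAt Euc4 p x) *
      pushFrame h p x := by
  obtain ⟨hy, he⟩ := chart_mem_source (mem_chart_source Euc4 x) hp
  have e : hessM (G x) (rd x u) (chartAt Euc4 x x) =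
      hessM (G x) (fun z => rd p u (tr x p z)) (chartAt Euc4 x x) := by
    ext i j
    have e1 : ∀ k, ∀ z ∈ (tr x p).source,
        pd (rd x u) k z = pd (fun w => rd p u (tr x p w)) k z :=
      fun k z hz => Local.pd_congr (tr x p).open_source hz (rd_change x p u) k
    simp only [hessM, of_apply, e1 _ _ hy,
      Local.pd_congr (tr x p).open_source hy (e1 j) i]
  rw [hess, e, hessM_change h (hu p) hy, he]
  simp only [pushFrame, transpose_mul, Matrix.mul_assoc]

/-- The inner product of two differentials in a chart. -/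
theorem grad_dot_grad {u v : X → ℝ} (hu : Smooth u) (hv : Smooth v) :
    grad h u x ⬝ᵥ grad h v x = dvec (rd p u) (chartAt Euc4 p x) ⬝ᵥ
      (G p (chartAt Euc4 p x))⁻¹ *ᵥ dvec (rd p v) (chartAt Euc4 p x) := by
  rw [grad_eq h hp hu, grad_eq h hp hv, ← pushFrame_inv h hp, ← mulVec_mulVec,
    dotProduct_mulVec _ (pushFrame h p x), ← mulVec_transpose]

/-- The trace of the Hessian is the Laplacian in a chart. -/
theorem trace_hess {u : X → ℝ} (hu : Smooth u) :
    (hess h u x).trace = Local.lap (G p) (rd p u) (chartAt Euc4 p x) := by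
  rw [hess_eq h hp hu, trace_mul_cycle, pushFrame_inv h hp]
  have hG := isMetricOn h p
  simp only [Local.lap, Matrix.trace, Matrix.diag, mul_apply, hessM, of_apply]
  refine Finset.sum_congr rfl fun i _ => Finset.sum_congr rfl fun j _ => ?_
  have e : pd (pd (rd p u) i) j (chartAt Euc4 p x) = pd (pd (rd p u) j) i (chartAt Euc4 p x) :=
    Local.pd_comm (hu p) (chartAt Euc4 p).open_target ((chartAt Euc4 p).map_source hp) i j
  rw [e, Finset.sum_congr rfl fun k _ => by rw [hG.gam_comm _ k i j]]

/-- The contraction of two Hessians in a chart. -/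
theorem hess_dot_hess {u v : X → ℝ} (hu : Smooth u) (hv : Smooth v) :
    (∑ i, ∑ j, hess h u x i j * hess h v x i j) =
      ((G p (chartAt Euc4 p x))⁻¹ * (hessM (G p) (rd p u) (chartAt Euc4 p x)).transpose *
        (G p (chartAt Euc4 p x))⁻¹ * hessM (G p) (rd p v) (chartAt Euc4 p x)).trace := by
  have e : ∀ A B : M4, ∑ i, ∑ j, A i j * B i j = (A.transpose * B).trace :=
    fun A B => SelfDual.pair_eq_trace A B
  rw [e, hess_eq h hp hu, hess_eq h hp hv, ← pushFrame_inv h hp]
  simp only [transpose_mul, transpose_transpose, Matrix.mul_assoc]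
  rw [trace_mul_comm (pushFrame h p x)]
  simp only [Matrix.mul_assoc]

/-- The Hessian applied to a differential, paired with a differential, in a chart. -/
theorem grad_dot_hess_grad {f u v : X → ℝ} (hf : Smooth f) (hu : Smooth u) (hv : Smooth v) :
    grad h f x ⬝ᵥ hess h u x *ᵥ grad h v x = dvec (rd p f) (chartAt Euc4 p x) ⬝ᵥ
      ((G p (chartAt Euc4 p x))⁻¹ * hessM (G p) (rd p u) (chartAt Euc4 p x) *
        (G p (chartAt Euc4 p x))⁻¹) *ᵥ dvec (rd p v) (chartAt Euc4 p x) := by
  rw [grad_eq h hp hf, grad_eq h hp hv, hess_eq h hp hu, ← pushFrame_inv h hp, mulVec_mulVec,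
    mulVec_transpose, ← dotProduct_mulVec, mulVec_mulVec]
  simp only [Matrix.mul_assoc]

end

end Vale.Agent.P211.Global
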